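import Vale.Agent.P108.Area.Main

/-!
# P108: the area product estimate at a clean base time
-/

open MeasureTheory Filter Set Topology

namespace Vale.Agent.P108.Area

open Vale.Agent.P108 Vale.Agent.P108.Dyn Vale.Agent.P108.H504 Vale.Agent.P108.H786

variable {k : ℝ}

/-- `A₀` is surrounded in `A` by unstable leaves in the window `[p, -1]` (`x_{p-1}` fixed, `x_p`
moves): `x_0` moves by at least `1/16` on each side and `x_{-1}` at most `1/4` as much. -/
def UnstC (k : ℝ) (p : ℤ) (A₀ A : Set (ℝ × ℝ)) : Prop :=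
  ∀ z ∈ A₀, 1 ≤ |D (ao k z) p (-1)| ∧ ∀ s, |s - orb k z p| * |D (ao k z) p (-1)| ≤ 1 / 8 →
    pt k p (orb k z (p - 1), s) ∈ A ∧
    |D (ao k z) p (-1)| ≤ 2 * |D (ao k (pt k p (orb k z (p - 1), s))) p (-1)| ∧
    |D (ao k (pt k p (orb k z (p - 1), s))) p (-1)| ≤ 2 * |D (ao k z) p (-1)| ∧
    |D (ao k (pt k p (orb k z (p - 1), s))) p (-2)|
      ≤ 1 / 4 * |D (ao k (pt k p (orb k z (p - 1), s))) p (-1)|

/-- the clean set -/
def Clean (k : ℝ) : Set (ℝ × ℝ) := {z | 9 * √k ≤ |ao k z 0|}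

lemma a_lip {k : ℝ} (hk : 0 ≤ k) (x y : ℝ) : |FT.a k x - FT.a k y| ≤ 40 * k * |x - y| := by
  have h1 : |Real.cos (2 * Real.pi * x) - Real.cos (2 * Real.pi * y)|
      ≤ |2 * Real.pi * x - 2 * Real.pi * y| := Real.abs_cos_sub_cos_le _ _
  have h2 : |2 * Real.pi * x - 2 * Real.pi * y| = 2 * Real.pi * |x - y| := by
    rw [← mul_sub, abs_mul, abs_of_pos (by positivity)]
  have h3 : Real.pi ^ 2 ≤ 10 := by nlinarith [Real.pi_lt_d2, Real.pi_pos]
  unfold FT.a
  have h4 : 2 + 2 * Real.pi * k * Real.cos (2 * Real.pi * x)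
      - (2 + 2 * Real.pi * k * Real.cos (2 * Real.pi * y))
      = 2 * Real.pi * k * (Real.cos (2 * Real.pi * x) - Real.cos (2 * Real.pi * y)) := by ring
  rw [h4, abs_mul, abs_of_nonneg (by positivity)]
  calc 2 * Real.pi * k * |Real.cos (2 * Real.pi * x) - Real.cos (2 * Real.pi * y)|
      ≤ 2 * Real.pi * k * (2 * Real.pi * |x - y|) := by
        rw [← h2]; gcongr
    _ = 4 * Real.pi ^ 2 * (k * |x - y|) := by ring
    _ ≤ 4 * 10 * (k * |x - y|) := by gcongr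
    _ = 40 * k * |x - y| := by ring

lemma UnstC.unst (hk : 1 ≤ k) {p : ℤ} (hp : p ≤ 0) {A₀ A : Set (ℝ × ℝ)} (h : UnstC k p A₀ A) :
    Unst k p (A₀ ∩ Clean k) A := by
  rintro z ⟨hz, hc⟩
  obtain ⟨h1, h2⟩ := h z hz
  set d : ℝ := |D (ao k z) p (-1)| with hd
  set α : ℝ := |ao k z 0| with hα
  have hsq : √k ^ 2 = k := Real.sq_sqrt (by linarith)
  have hs1 : 1 ≤ √k := by rw [← Real.sqrt_one]; exact Real.sqrt_le_sqrt hk
  have hα9 : 9 * √k ≤ α := hc
  have hα0 : 9 ≤ α := by linarith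
  have hα2 : 81 * k ≤ α ^ 2 := by nlinarith
  have hz0 : pt k p (orb k z (p - 1), orb k z p) = z := pt_orb k p z
  have hDr : ∀ w : ℝ × ℝ, D (ao k w) p 0
      = ao k w 0 * D (ao k w) p (-1) - D (ao k w) p (-2) := by
    intro w
    have := D_right (ao k w) hp
    simpa using this
  have hup : ∀ w : ℝ × ℝ, |D (ao k w) p (-2)| ≤ 1 / 4 * |D (ao k w) p (-1)| →
      (|ao k w 0| - 1 / 4) * |D (ao k w) p (-1)| ≤ |D (ao k w) p 0| ∧
      |D (ao k w) p 0| ≤ (|ao k w 0| + 1 / 4) * |D (ao k w) p (-1)| := by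
    intro w hw
    rw [hDr]
    have e1 := abs_sub_abs_le_abs_sub (ao k w 0 * D (ao k w) p (-1)) (D (ao k w) p (-2))
    have e2 := abs_sub (ao k w 0 * D (ao k w) p (-1)) (D (ao k w) p (-2))
    rw [abs_mul] at e1 e2
    constructor <;> linarith
  have h3 := h2 (orb k z p) (by rw [sub_self, abs_zero, zero_mul]; norm_num)
  rw [hz0] at h3
  obtain ⟨h4, h5⟩ := hup z h3.2.2.2
  have hD0 : 1 ≤ |D (ao k z) p 0| := by nlinarith
  refine ⟨hD0, fun s hs => ?_⟩
  -- displacement in the window `[p, -1]`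
  have hsd : |s - orb k z p| * d * (α - 1 / 4) ≤ 1 / 16 := by
    calc |s - orb k z p| * d * (α - 1 / 4) = |s - orb k z p| * ((α - 1 / 4) * d) := by ring
      _ ≤ |s - orb k z p| * |D (ao k z) p 0| := by gcongr
      _ ≤ 1 / 16 := hs
  have hnn : 0 ≤ |s - orb k z p| * d := by positivity
  have hsd1 : |s - orb k z p| * d ≤ 1 / 8 := by nlinarith
  obtain ⟨h6, h7, h8, h9⟩ := h2 s hsd1
  set w : ℝ × ℝ := pt k p (orb k z (p - 1), s) with hw
  obtain ⟨h10, h11⟩ := hup w h9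
  -- displacement of `x_0`
  have hx0 : |orb k w 0 - orb k z 0| ≤ 2 * (|s - orb k z p| * d) := by
    have hder : ∀ t, HasDerivAt (fun s => orb k (pt k p (orb k z (p - 1), s)) 0)
        (D (ao k (pt k p (orb k z (p - 1), t))) p (-1)) t := by
      intro t
      have := hasDerivAt_orb_right k (orb k z (p - 1)) p (i := 0) (by omega) t
      rwa [zero_sub] at this
    obtain ⟨c, hc, e1⟩ := mvt (a := orb k z p) (b := s) (fun x _ => hder x)
    simp only [hz0] at e1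
    rw [e1, abs_mul]
    have e2 := (h2 c ((mul_le_mul_of_nonneg_right (mem_uIcc_abs hc)
      (by positivity)).trans hsd1)).2.2.1
    calc |D (ao k (pt k p (orb k z (p - 1), c))) p (-1)| * |s - orb k z p|
        ≤ (2 * d) * |s - orb k z p| := by gcongr
      _ = _ := by ring
  -- change of `a_0`
  have hda : |ao k w 0 - ao k z 0| ≤ 1 / 10 * α := by
    have e1 : |ao k w 0 - ao k z 0| ≤ 40 * k * |orb k w 0 - orb k z 0| :=
      a_lip (by linarith) _ _
    have e2 : 40 * k * |orb k w 0 - orb k z 0| ≤ 80 * (k * (|s - orb k z p| * d)) := by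
      calc 40 * k * |orb k w 0 - orb k z 0| ≤ 40 * k * (2 * (|s - orb k z p| * d)) := by gcongr
        _ = _ := by ring
    have e3 : k * (|s - orb k z p| * d) * α ≤ 1 / 800 * α ^ 2 := by
      have e4 : (|s - orb k z p| * d) * α ≤ 1 / 15 := by nlinarith
      have e5 : k * ((|s - orb k z p| * d) * α) ≤ k * (1 / 15) := by gcongr
      nlinarith
    have e6 : k * (|s - orb k z p| * d) ≤ 1 / 800 * α := by
      have hαpos : 0 < α := by linarith
      refine le_of_mul_le_mul_right ?_ hαpos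
      calc k * (|s - orb k z p| * d) * α ≤ 1 / 800 * α ^ 2 := e3
        _ = 1 / 800 * α * α := by ring
    linarith
  have ha1 : 9 / 10 * α ≤ |ao k w 0| := by
    have e1 := abs_sub_abs_le_abs_sub (ao k z 0) (ao k w 0)
    rw [abs_sub_comm] at hda
    linarith
  have ha2 : |ao k w 0| ≤ 11 / 10 * α := by
    have e1 := abs_sub_abs_le_abs_sub (ao k w 0) (ao k z 0)
    linarith
  have hd' : 0 ≤ |D (ao k w) p (-1)| := abs_nonneg _
  have hdpos : 0 < d := by linarith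
  refine ⟨h6, ?_, ?_, ?_⟩
  · -- upper bound of `D0` by `4 D0'`
    have e1 : |D (ao k z) p 0| ≤ (α + 1 / 4) * d := h5
    have e2 : (9 / 10 * α - 1 / 4) * |D (ao k w) p (-1)| ≤ |D (ao k w) p 0| :=
      le_trans (by gcongr) h10
    have e3 : (9 / 10 * α - 1 / 4) * (d / 2) ≤ (9 / 10 * α - 1 / 4) * |D (ao k w) p (-1)| := by
      apply mul_le_mul_of_nonneg_left _ (by linarith)
      linarith
    have e4 : 0 ≤ (8 / 10 * α - 3 / 4) * d := mul_nonneg (by linarith) hdpos.le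
    linarith
  · have e1 : (α - 1 / 4) * d ≤ |D (ao k z) p 0| := h4
    have e2 : |D (ao k w) p 0| ≤ (11 / 10 * α + 1 / 4) * |D (ao k w) p (-1)| :=
      h11.trans (by gcongr)
    have e3 : (11 / 10 * α + 1 / 4) * |D (ao k w) p (-1)| ≤ (11 / 10 * α + 1 / 4) * (2 * d) := by
      gcongr
    have e4 : 0 ≤ (18 / 10 * α - 3 / 2) * d := mul_nonneg (by linarith) hdpos.le
    linarith
  · have e2 : (9 / 10 * α - 1 / 4) * |D (ao k w) p (-1)| ≤ |D (ao k w) p 0| :=
      le_trans (by gcongr) h10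
    have e4 : 0 ≤ (9 / 10 * α - 1 / 4 - 4) * |D (ao k w) p (-1)| :=
      mul_nonneg (by linarith) hd'
    linarith

/-- `Stab` with the better constant `2` -/
def StabC (k : ℝ) (q : ℤ) (B₀ B : Set (ℝ × ℝ)) : Prop :=
  ∀ z ∈ B₀, 1 ≤ |D (ao k z) 1 q| ∧ ∀ s, |s - orb k z q| * |D (ao k z) 1 q| ≤ 1 / 8 →
    pt k (q + 1) (s, orb k z (q + 1)) ∈ B ∧
    |D (ao k z) 1 q| ≤ 2 * |D (ao k (pt k (q + 1) (s, orb k z (q + 1)))) 1 q| ∧
    |D (ao k (pt k (q + 1) (s, orb k z (q + 1)))) 1 q| ≤ 2 * |D (ao k z) 1 q| ∧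
    |D (ao k (pt k (q + 1) (s, orb k z (q + 1)))) 2 q|
      ≤ 1 / 4 * |D (ao k (pt k (q + 1) (s, orb k z (q + 1)))) 1 q|

lemma StabC.stab {q : ℤ} {B₀ B : Set (ℝ × ℝ)} (h : StabC k q B₀ B) : Stab k q B₀ B := by
  intro z hz
  obtain ⟨h1, h2⟩ := h z hz
  refine ⟨h1, fun s hs => ?_⟩
  obtain ⟨h3, h4, h5, h6⟩ := h2 s hs
  exact ⟨h3, h4.trans (by gcongr; norm_num), h5.trans (by gcongr; norm_num), h6⟩

lemma Clean_per (k : ℝ) : Per (Clean k) := by
  intro z a b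
  simp only [Clean, mem_ofPred_eq]
  have h : ao k (z + ip a b) 0 = ao k z 0 := by
    unfold ao
    rw [orb_add_ip]
    have : (a : ℝ) + (0 : ℤ) * b = ((a : ℤ) : ℝ) := by simp
    rw [this, FT.a_add_int]
  rw [h]

lemma Clean_meas (k : ℝ) : MeasurableSet (Clean k) :=
  measurableSet_le measurable_const (continuous_ao k 0).abs.measurable

/-- **[AREA]** at a clean base time `0`, windows `[p, -1]` and `[1, q]`. -/
theorem area_clean (hk : 1 ≤ k) {p q : ℤ} (hp : p ≤ 0) (hq : 0 ≤ q) {A₀ A B₀ B : Set (ℝ × ℝ)}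
    (hA₀m : MeasurableSet A₀) (hAm : MeasurableSet A) (hB₀m : MeasurableSet B₀)
    (hBm : MeasurableSet B) (hA₀ : Per A₀) (hA : Per A) (hB₀ : Per B₀) (hB : Per B)
    (hU : UnstC k p A₀ A) (hS : StabC k q B₀ B) :
    mQ (A₀ ∩ B₀ ∩ Clean k) ≤ 72000 * mQ A * mQ B := by
  have h := area (by omega : p ≤ 1) hq (hA₀m.inter (Clean_meas k)) hAm hB₀m hBm
    (fun z a b => by simp only [mem_inter_iff, hA₀ z a b, Clean_per k z a b]) hA hB₀ hB
    (hU.unst hk hp) hS.stab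
  have e : A₀ ∩ B₀ ∩ Clean k = A₀ ∩ Clean k ∩ B₀ := by
    ext z; simp only [mem_inter_iff]; tauto
  rw [e]
  exact h

end Vale.Agent.P108.Area
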