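import Vale.Agent.P108.H786.Bridge

/-!
# P108: coordinates `(x_{j-1}, x_j)` and derivatives of the orbit along coordinate lines
-/

open MeasureTheory Filter Set Topology

namespace Vale.Agent.P108.Area

open Vale.Agent.P108 Vale.Agent.P108.Dyn Vale.Agent.P108.H504 Vale.Agent.P108.H786

variable {k : ℝ}

/-- the point of the plane whose orbit has `x_{j-1} = w.1`, `x_j = w.2` -/
noncomputable def pt (k : ℝ) (j : ℤ) (w : ℝ × ℝ) : ℝ × ℝ := Fz k (-j) (w.2, w.2 - w.1)

lemma orb_pt_self (k : ℝ) (j : ℤ) (w : ℝ × ℝ) : orb k (pt k j w) j = w.2 := by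
  unfold pt
  rw [orb_Fz, add_neg_cancel, orb_zero]

lemma orb_pt_pred (k : ℝ) (j : ℤ) (w : ℝ × ℝ) : orb k (pt k j w) (j - 1) = w.1 := by
  unfold pt
  rw [orb_Fz, show j - 1 + -j = -1 by ring]
  unfold orb
  rw [Fz_neg_one]
  simp [Finv]

lemma pt_orb (k : ℝ) (j : ℤ) (z : ℝ × ℝ) : pt k j (orb k z (j - 1), orb k z j) = z := by
  unfold pt
  have h : ((orb k z j, orb k z j - orb k z (j - 1)) : ℝ × ℝ) = Fz k j z := by
    rw [← Fz_snd]; rfl
  simp only
  rw [h, ← Fz_add, neg_add_cancel, Fz_zero]

/-- a point is determined by two consecutive positions -/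
lemma eq_pt {k : ℝ} {j : ℤ} {z w : ℝ × ℝ} (h1 : orb k z (j - 1) = w.1) (h2 : orb k z j = w.2) :
    z = pt k j w := by
  rw [← pt_orb k j z, h1, h2]

lemma ext_orb {k : ℝ} {j : ℤ} {z w : ℝ × ℝ} (h1 : orb k z (j - 1) = orb k w (j - 1))
    (h2 : orb k z j = orb k w j) : z = w := by
  rw [← pt_orb k j z, h1, h2, pt_orb]

lemma continuous_pt (k : ℝ) (j : ℤ) : Continuous (pt k j) :=
  (continuous_Fz k (-j)).comp (by fun_prop)

lemma measurable_pt (k : ℝ) (j : ℤ) : Measurable (pt k j) := (continuous_pt k j).measurable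

lemma pt_add_ip (k : ℝ) (j : ℤ) (w : ℝ × ℝ) (a b : ℤ) :
    pt k j (w + ip a b) = pt k j w + ip (b - j * (b - a)) (b - a) := by
  unfold pt
  have h : (((w + ip a b).2, (w + ip a b).2 - (w + ip a b).1) : ℝ × ℝ)
      = (w.2, w.2 - w.1) + ip b (b - a) := by
    unfold ip
    ext
    · simp
    · simp; ring
  rw [h, Fz_add_ip]
  congr 2
  ring

/-- sets invariant under integer translations -/
def Per (A : Set (ℝ × ℝ)) : Prop := ∀ (z : ℝ × ℝ) (a b : ℤ), z + ip a b ∈ A ↔ z ∈ A

lemma Per.fr {A : Set (ℝ × ℝ)} (hA : Per A) (z : ℝ × ℝ) : fr z ∈ A ↔ z ∈ A := by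
  rw [fr_eq]; exact hA _ _ _

lemma Per.pt {A : Set (ℝ × ℝ)} (hA : Per A) (k : ℝ) (j : ℤ) : Per {w | pt k j w ∈ A} := by
  intro z a b
  simp only [mem_ofPred_eq]
  rw [pt_add_ip]
  exact hA _ _ _

/-- area is `dx_{j-1} dx_j` -/
theorem mQ_pt {A : Set (ℝ × ℝ)} (hA : Per A) (hm : MeasurableSet A) (k : ℝ) (j : ℤ) :
    mQ {w | pt k j w ∈ A} = mQ A := by
  have hm' : MeasurableSet {w | pt k j w ∈ A} := measurable_pt k j hm
  rw [← (mp_xy k j).measure_preimage hm'.nullMeasurableSet]
  congr 1
  ext z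
  simp only [mem_preimage, mem_ofPred_eq]
  have h1 : pt k j (xy k j z) ∈ A ↔ pt k j (orb k z (j - 1), orb k z j) ∈ A := by
    unfold xy
    exact (hA.pt k j).fr _
  rw [h1, pt_orb]

lemma continuous_orb_pt (k : ℝ) (j i : ℤ) : Continuous (fun w => orb k (pt k j w) i) :=
  (continuous_orb k i).comp (continuous_pt k j)

lemma continuous_ao (k : ℝ) (i : ℤ) : Continuous (fun z => ao k z i) := by
  unfold ao FT.a
  have := continuous_orb k i
  fun_prop

lemma continuous_S (k : ℝ) (p : ℤ) (n : ℕ) : Continuous (fun z => S (ao k z) p n) := by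
  induction n using Nat.strong_induction_on with
  | _ n ih =>
    match n with
    | 0 => simp only [S_zero]; exact continuous_const
    | 1 => simp only [S_one]; exact continuous_const
    | (n + 2) =>
      simp only [S_succ]
      exact ((continuous_ao k _).mul (ih (n + 1) (by omega))).sub (ih n (by omega))

lemma continuous_D (k : ℝ) (p q : ℤ) : Continuous (fun z => D (ao k z) p q) :=
  continuous_S k p _

/-- derivative of the positions along the line `x_{p-1} = c` -/
theorem hasDerivAt_orb_right (k c : ℝ) (p : ℤ) {i : ℤ} (hi : p - 1 ≤ i) (s : ℝ) :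
    HasDerivAt (fun s => orb k (pt k p (c, s)) i) (D (ao k (pt k p (c, s))) p (i - 1)) s := by
  have key : ∀ n : ℕ,
      HasDerivAt (fun s => orb k (pt k p (c, s)) (p - 1 + n))
        (D (ao k (pt k p (c, s))) p (p - 1 + n - 1)) s ∧
      HasDerivAt (fun s => orb k (pt k p (c, s)) (p + n))
        (D (ao k (pt k p (c, s))) p (p + n - 1)) s := by
    intro n
    induction n with
    | zero =>
      constructor
      · have h1 : (fun s => orb k (pt k p (c, s)) (p - 1 + (0 : ℕ))) = fun _ => c := by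
          funext s; simp only [Nat.cast_zero, add_zero]; exact orb_pt_pred k p (c, s)
        rw [h1, Nat.cast_zero, D_of_le _ (by omega)]
        exact hasDerivAt_const s c
      · have h1 : (fun s => orb k (pt k p (c, s)) (p + (0 : ℕ))) = fun s => s := by
          funext s; simp only [Nat.cast_zero, add_zero]; exact orb_pt_self k p (c, s)
        rw [h1, Nat.cast_zero, add_zero, D_empty]
        exact hasDerivAt_id' s
    | succ n ih =>
      obtain ⟨ih1, ih2⟩ := ih
      have e1 : p - 1 + ((n + 1 : ℕ) : ℤ) = p + n := by push_cast; ring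
      have e2 : p + ((n + 1 : ℕ) : ℤ) = p + n + 1 := by push_cast; ring
      refine ⟨by rw [e1]; exact ih2, ?_⟩
      have h1 : (fun s => orb k (pt k p (c, s)) (p + ((n + 1 : ℕ) : ℤ)))
          = fun s => phi k (orb k (pt k p (c, s)) (p + n))
              - orb k (pt k p (c, s)) (p - 1 + n) := by
        funext s
        rw [e2, orb_succ, show p + (n : ℤ) - 1 = p - 1 + n by ring]
      rw [h1, e2]
      have h2 := ((hasDerivAt_phi k (orb k (pt k p (c, s)) (p + n))).comp s ih2).sub ih1
      refine h2.congr_deriv ?_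
      rw [show p + (n : ℤ) + 1 - 1 = p + n by ring, D_right _ (show p ≤ p + (n : ℤ) by omega),
        show p - 1 + (n : ℤ) - 1 = p + n - 2 by ring]
      rfl
  obtain ⟨n, hn⟩ := Int.le.dest hi
  have := (key n).1
  rw [hn] at this
  exact this

/-- derivative of the positions along the line `x_{q+1} = c` -/
theorem hasDerivAt_orb_left (k c : ℝ) (q : ℤ) {i : ℤ} (hi : i ≤ q + 1) (s : ℝ) :
    HasDerivAt (fun s => orb k (pt k (q + 1) (s, c)) i)
      (D (ao k (pt k (q + 1) (s, c))) (i + 1) q) s := by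
  have key : ∀ n : ℕ,
      HasDerivAt (fun s => orb k (pt k (q + 1) (s, c)) (q + 1 - n))
        (D (ao k (pt k (q + 1) (s, c))) (q + 1 - n + 1) q) s ∧
      HasDerivAt (fun s => orb k (pt k (q + 1) (s, c)) (q - n))
        (D (ao k (pt k (q + 1) (s, c))) (q - n + 1) q) s := by
    intro n
    induction n with
    | zero =>
      constructor
      · have h1 : (fun s => orb k (pt k (q + 1) (s, c)) (q + 1 - (0 : ℕ))) = fun _ => c := by
          funext s; simp only [Nat.cast_zero, sub_zero]; exact orb_pt_self k (q + 1) (s, c)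
        rw [h1, Nat.cast_zero, D_of_le _ (by omega)]
        exact hasDerivAt_const s c
      · have h1 : (fun s => orb k (pt k (q + 1) (s, c)) (q - (0 : ℕ))) = fun s => s := by
          funext s
          have := orb_pt_pred k (q + 1) (s, c)
          simp only [Nat.cast_zero, sub_zero]
          rwa [add_sub_cancel_right] at this
        rw [h1, Nat.cast_zero, sub_zero, D_empty']
        exact hasDerivAt_id' s
    | succ n ih =>
      obtain ⟨ih1, ih2⟩ := ih
      have e1 : q + 1 - ((n + 1 : ℕ) : ℤ) = q - n := by push_cast; ring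
      have e2 : q - ((n + 1 : ℕ) : ℤ) = q - n - 1 := by push_cast; ring
      refine ⟨by rw [e1]; exact ih2, ?_⟩
      have h1 : (fun s => orb k (pt k (q + 1) (s, c)) (q - ((n + 1 : ℕ) : ℤ)))
          = fun s => phi k (orb k (pt k (q + 1) (s, c)) (q - n))
              - orb k (pt k (q + 1) (s, c)) (q + 1 - n) := by
        funext s
        have := orb_rec k (pt k (q + 1) (s, c)) (q - n)
        rw [e2, show q + 1 - (n : ℤ) = q - n + 1 by ring]
        linarith
      rw [h1, e2]
      have h2 := ((hasDerivAt_phi k (orb k (pt k (q + 1) (s, c)) (q - n))).comp s ih2).sub ih1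
      refine h2.congr_deriv ?_
      rw [show q - (n : ℤ) - 1 + 1 = q - n by ring, D_left _ (show q - (n : ℤ) ≤ q by omega),
        show q + 1 - (n : ℤ) + 1 = q - n + 2 by ring]
      rfl
  obtain ⟨n, hn⟩ := Int.le.dest hi
  have := (key n).1
  rw [show q + 1 - (n : ℤ) = i by omega] at this
  exact this

end Vale.Agent.P108.Area
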