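import Vale.Agent.P108.Area.Coord
import Mathlib.MeasureTheory.Function.Jacobian

/-!
# P108: the curve lemma

A piece of a curve transversal to the stable leaves meets a set saturated by stable leaves in a set
of length at most a constant times (area of the saturation) / (expansion).
-/

open MeasureTheory Filter Set Topology

namespace Vale.Agent.P108.Area

open Vale.Agent.P108 Vale.Agent.P108.Dyn Vale.Agent.P108.H504 Vale.Agent.P108.H786

variable {k : ℝ}

lemma measurableSet_Q' : MeasurableSet Q := measurableSet_Ico.prod measurableSet_Ico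

/-- a set with at most one point in each class modulo `ℤ²` has volume at most that of its
periodic hull -/
theorem volume_le_mQ {W : Set (ℝ × ℝ)} (hW : Per W) {T : Set (ℝ × ℝ)}
    (hT : MeasurableSet T) (hTW : T ⊆ W)
    (hinj : ∀ w ∈ T, ∀ a b : ℤ, w + ip a b ∈ T → a = 0 ∧ b = 0) : volume T ≤ mQ W := by
  -- the cells
  set Qn : ℤ × ℤ → Set (ℝ × ℝ) := fun n => {w | ⌊w.1⌋ = n.1 ∧ ⌊w.2⌋ = n.2} with hQn
  have hQm : ∀ n, MeasurableSet (Qn n) := fun n =>
    (measurableSet_eq_fun (Int.measurable_floor.comp measurable_fst) measurable_const).inter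
      (measurableSet_eq_fun (Int.measurable_floor.comp measurable_snd) measurable_const)
  have hU : T = ⋃ n, T ∩ Qn n := by
    ext w
    simp only [mem_iUnion, mem_inter_iff]
    exact ⟨fun h => ⟨(⌊w.1⌋, ⌊w.2⌋), h, rfl, rfl⟩, fun ⟨_, h, _⟩ => h⟩
  have hd : Pairwise (Function.onFun Disjoint fun n => T ∩ Qn n) := by
    intro n m hnm
    refine Set.disjoint_left.2 ?_
    rintro w ⟨_, h1, h2⟩ ⟨_, h3, h4⟩
    exact hnm (Prod.ext (h1.symm.trans h3) (h2.symm.trans h4))
  set P : ℤ × ℤ → Set (ℝ × ℝ) := fun n => (fun w => w + ip n.1 n.2) ⁻¹' (T ∩ Qn n) with hP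
  have hPm : ∀ n, MeasurableSet (P n) := fun n =>
    (measurable_id.add_const _) (hT.inter (hQm n))
  have hPv : ∀ n, volume (P n) = volume (T ∩ Qn n) := fun n =>
    measure_preimage_add_right _ _ _
  have hPQ : ∀ n, P n ⊆ W ∩ Q := by
    rintro n w ⟨h1, h2, h3⟩
    refine ⟨(hW w _ _).1 (hTW h1), ?_⟩
    unfold ip at h2 h3
    simp only [Prod.fst_add, Prod.snd_add, Int.floor_add_intCast] at h2 h3
    have h4 : ⌊w.1⌋ = 0 := by omega
    have h5 : ⌊w.2⌋ = 0 := by omega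
    rw [Int.floor_eq_zero_iff] at h4 h5
    exact ⟨h4, h5⟩
  have hPd : Pairwise (Function.onFun Disjoint P) := by
    intro n m hnm
    refine Set.disjoint_left.2 ?_
    rintro w ⟨h1, _⟩ ⟨h2, _⟩
    simp only at h1 h2
    have h3 : w + ip m.1 m.2 = w + ip n.1 n.2 + ip (m.1 - n.1) (m.2 - n.2) := by
      unfold ip
      ext
      · simp
      · simp
    rw [h3] at h2
    obtain ⟨h4, h5⟩ := hinj _ h1 _ _ h2
    exact hnm (Prod.ext (by omega) (by omega))
  calc volume T = ∑' n, volume (T ∩ Qn n) := by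
        conv_lhs => rw [hU]
        exact measure_iUnion hd fun n => hT.inter (hQm n)
    _ = ∑' n, volume (P n) := by simp only [hPv]
    _ = volume (⋃ n, P n) := (measure_iUnion hPd hPm).symm
    _ ≤ volume (W ∩ Q) := measure_mono (iUnion_subset hPQ)
    _ = mQ W := by
        unfold mQ
        rw [Measure.restrict_apply' measurableSet_Q']

/-- abstract form of the curve lemma -/
theorem curve_bound {E : Set ℝ} (hE : MeasurableSet E) {g g' u₀ L : ℝ → ℝ}
    (hg : ∀ s ∈ E, HasDerivAt g (g' s) s) (hg' : Measurable g') (hu : Measurable u₀)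
    (hL : Measurable L) {κ : ℝ} (hκ : ∀ s ∈ E, κ ≤ |g' s| * L s)
    {W : Set (ℝ × ℝ)} (hW : Per W)
    (hmap : ∀ s ∈ E, ∀ t, u₀ s ≤ t → t ≤ u₀ s + L s → (g s, t) ∈ W)
    (hinj : ∀ s ∈ E, ∀ t, u₀ s ≤ t → t ≤ u₀ s + L s → ∀ s' ∈ E, ∀ t', u₀ s' ≤ t' →
      t' ≤ u₀ s' + L s' → ∀ a b : ℤ, (g s', t') = (g s, t) + ip a b → s = s' ∧ a = 0 ∧ b = 0) :
    ENNReal.ofReal κ * volume E ≤ mQ W := by
  set S : Set (ℝ × ℝ) := {x | x.1 ∈ E ∧ u₀ x.1 ≤ x.2 ∧ x.2 ≤ u₀ x.1 + L x.1} with hS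
  have hSm : MeasurableSet S :=
    (measurable_fst hE).inter
      ((measurableSet_le (hu.comp measurable_fst) measurable_snd).inter
        (measurableSet_le measurable_snd
          ((hu.comp measurable_fst).add (hL.comp measurable_fst))))
  set f : ℝ × ℝ → ℝ × ℝ := fun x => (g x.1, x.2) with hf
  set f' : ℝ × ℝ → ℝ × ℝ →L[ℝ] ℝ × ℝ := fun x =>
    (ContinuousLinearMap.toSpanSingleton ℝ (g' x.1)).prodMap (ContinuousLinearMap.id ℝ ℝ) with hf'
  have hdf : ∀ x ∈ S, HasFDerivWithinAt f (f' x) S x := by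
    intro x hx
    have h1 : HasFDerivAt g (ContinuousLinearMap.toSpanSingleton ℝ (g' x.1)) x.1 :=
      (hg x.1 hx.1).hasFDerivAt
    exact (h1.prodMap x (hasFDerivAt_id x.2)).hasFDerivWithinAt
  have hdet : ∀ x, (f' x).det = g' x.1 := by
    intro x
    have h1 : ((f' x : ℝ × ℝ →L[ℝ] ℝ × ℝ) : ℝ × ℝ →ₗ[ℝ] ℝ × ℝ)
        = ((ContinuousLinearMap.toSpanSingleton ℝ (g' x.1) : ℝ →L[ℝ] ℝ) : ℝ →ₗ[ℝ] ℝ).prodMap
          (LinearMap.id : ℝ →ₗ[ℝ] ℝ) := rfl
    rw [ContinuousLinearMap.det, h1, LinearMap.det_prodMap, LinearMap.det_id, mul_one]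
    have h2 : ((ContinuousLinearMap.toSpanSingleton ℝ (g' x.1) : ℝ →L[ℝ] ℝ) : ℝ →ₗ[ℝ] ℝ)
        = (g' x.1) • (LinearMap.id : ℝ →ₗ[ℝ] ℝ) := by
      ext
      simp
    rw [h2, LinearMap.det_smul]
    simp
  have hinjS : InjOn f S := by
    rintro ⟨s, t⟩ ⟨h1, h2, h3⟩ ⟨s', t'⟩ ⟨h4, h5, h6⟩ heq
    simp only [hf, Prod.mk.injEq] at heq
    have h7 := hinj s h1 t h2 h3 s' h4 t' h5 h6 0 0 (by
      unfold ip
      ext
      · simp [heq.1]
      · simp [heq.2])
    exact Prod.ext h7.1 heq.2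
  have hvol := lintegral_abs_det_fderiv_eq_addHaar_image volume hSm hdf hinjS
  have hTm : MeasurableSet (f '' S) := measurable_image_of_fderivWithin hSm hdf hinjS
  have hle : volume (f '' S) ≤ mQ W := by
    refine volume_le_mQ hW hTm ?_ ?_
    · rintro _ ⟨⟨s, t⟩, ⟨h1, h2, h3⟩, rfl⟩
      exact hmap s h1 t h2 h3
    · rintro _ ⟨⟨s, t⟩, ⟨h1, h2, h3⟩, rfl⟩ a b ⟨⟨s', t'⟩, ⟨h4, h5, h6⟩, h7⟩
      exact (hinj s h1 t h2 h3 s' h4 t' h5 h6 a b h7).2
  refine le_trans ?_ (hvol.symm ▸ hle)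
  -- the integral over `S`
  simp only [hdet]
  rw [← lintegral_indicator hSm, Measure.volume_eq_prod, lintegral_prod]
  · rw [← lintegral_indicator_const hE]
    refine lintegral_mono fun s => ?_
    by_cases hs : s ∈ E
    · rw [indicator_of_mem hs]
      have h1 : (fun t => S.indicator (fun x : ℝ × ℝ => ENNReal.ofReal |g' x.1|) (s, t))
          = (Icc (u₀ s) (u₀ s + L s)).indicator (fun _ => ENNReal.ofReal |g' s|) := by
        funext t
        by_cases ht : t ∈ Icc (u₀ s) (u₀ s + L s)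
        · rw [indicator_of_mem ht, indicator_of_mem (show (s, t) ∈ S from ⟨hs, ht.1, ht.2⟩)]
        · rw [indicator_of_notMem ht, indicator_of_notMem]
          exact fun h => ht ⟨h.2.1, h.2.2⟩
      rw [h1, lintegral_indicator_const measurableSet_Icc, Real.volume_Icc,
        ← ENNReal.ofReal_mul (abs_nonneg _)]
      refine ENNReal.ofReal_le_ofReal ((hκ s hs).trans (le_of_eq ?_))
      ring
    · rw [indicator_of_notMem hs]
      exact zero_le
  · refine (Measurable.indicator ?_ hSm).aemeasurable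
    exact ((hg'.comp measurable_fst).abs).ennreal_ofReal

/-- mean value theorem on unordered intervals -/
lemma mvt {f f' : ℝ → ℝ} {a b : ℝ} (h : ∀ x ∈ uIcc a b, HasDerivAt f (f' x) x) :
    ∃ c ∈ uIcc a b, f b - f a = f' c * (b - a) := by
  rcases lt_trichotomy a b with hab | hab | hab
  · rw [uIcc_of_le hab.le] at h ⊢
    obtain ⟨c, hc, h1⟩ := exists_hasDerivAt_eq_slope f f' hab
      (fun x hx => (h x hx).continuousAt.continuousWithinAt) (fun x hx => h x (Ioo_subset_Icc_self hx))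
    refine ⟨c, Ioo_subset_Icc_self hc, ?_⟩
    rw [h1, div_mul_cancel₀ _ (sub_pos.2 hab).ne']
  · subst hab
    exact ⟨a, left_mem_uIcc, by simp⟩
  · rw [uIcc_of_ge hab.le] at h ⊢
    obtain ⟨c, hc, h1⟩ := exists_hasDerivAt_eq_slope f f' hab
      (fun x hx => (h x hx).continuousAt.continuousWithinAt) (fun x hx => h x (Ioo_subset_Icc_self hx))
    refine ⟨c, Ioo_subset_Icc_self hc, ?_⟩
    rw [h1, div_mul_eq_mul_div, eq_div_iff (sub_pos.2 hab).ne']
    ring

/-- Cauchy mean value comparison -/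
lemma cauchy_cmp {f f' h h' : ℝ → ℝ} {a b η : ℝ} (hf : ∀ x ∈ uIcc a b, HasDerivAt f (f' x) x)
    (hh : ∀ x ∈ uIcc a b, HasDerivAt h (h' x) x) (hη : ∀ x ∈ uIcc a b, |h' x| ≤ η * |f' x|)
    (hne : ∀ x ∈ uIcc a b, f' x ≠ 0) : |h b - h a| ≤ η * |f b - f a| := by
  have key : ∀ {a b : ℝ}, a < b → (∀ x ∈ Icc a b, HasDerivAt f (f' x) x) →
      (∀ x ∈ Icc a b, HasDerivAt h (h' x) x) → (∀ x ∈ Icc a b, |h' x| ≤ η * |f' x|) →
      (∀ x ∈ Icc a b, f' x ≠ 0) → |h b - h a| ≤ η * |f b - f a| := by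
    intro a b hab hf hh hη hne
    obtain ⟨c, hc, h1⟩ := exists_ratio_hasDerivAt_eq_ratio_slope f f' hab
      (fun x hx => (hf x hx).continuousAt.continuousWithinAt)
      (fun x hx => hf x (Ioo_subset_Icc_self hx)) h h'
      (fun x hx => (hh x hx).continuousAt.continuousWithinAt)
      (fun x hx => hh x (Ioo_subset_Icc_self hx))
    have hc' := Ioo_subset_Icc_self hc
    have h2 : |h b - h a| * |f' c| = |f b - f a| * |h' c| := by
      rw [← abs_mul, ← abs_mul, h1]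
    have h3 : 0 < |f' c| := abs_pos.2 (hne c hc')
    have h4 : |f b - f a| * |h' c| ≤ |f b - f a| * (η * |f' c|) :=
      mul_le_mul_of_nonneg_left (hη c hc') (abs_nonneg _)
    have h5 : |h b - h a| * |f' c| ≤ (η * |f b - f a|) * |f' c| := by
      rw [h2]; refine h4.trans (le_of_eq ?_); ring
    exact le_of_mul_le_mul_right h5 h3
  rcases lt_trichotomy a b with hab | hab | hab
  · rw [uIcc_of_le hab.le] at hf hh hη hne
    exact key hab hf hh hη hne
  · subst hab
    simp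
  · rw [uIcc_of_ge hab.le] at hf hh hη hne
    rw [abs_sub_comm (h b), abs_sub_comm (f b)]
    exact key hab hf hh hη hne

end Vale.Agent.P108.Area
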