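import Vale.Agent.P108.Area.Meas
import Vale.Agent.P108.Cmb.Dir

/-!
# P108: decorrelation at a clean base, from the leaf statements

`LeftLeaf` / `RightLeaf` are the deterministic statements: outside `Nset`, the leaf of a first-scale
event of scale `r` (window from the Dirichlet point to the base) carries the same bad set on the
window and has bounded distortion.  `decor_of_leaves` deduces `Decor`.
-/

open MeasureTheory Filter Set Topology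

namespace Vale.Agent.P108.Area

open Vale.Agent.P108 Vale.Agent.P108.Dyn Vale.Agent.P108.Sk P108C
open Vale.Agent.P108.H786 (ao)

variable {k s : ℝ} {B B' : Set ℤ} {r r' : ℕ} {p q : ℤ}

/-- `p` is a Dirichlet point of a left event of scale `r`: the window is `[p, -1]` -/
def DirL (B : Set ℤ) (r : ℕ) (p : ℤ) : Prop :=
  -((r : ℤ) - 1) ≤ p ∧ p ≤ 0 ∧ c0 * ((p + ((r : ℤ) - 1) : ℤ) : ℝ) ≤ cc * ((r : ℝ) - 1) ∧
    ∀ y : ℕ, 1 ≤ y → p + y ≤ 0 →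
      (ms (Cl cc r (B ∩ Ico (0 - r) 0)) p (p + y) : ℝ) < c0 * y

/-- `q + 1` is a Dirichlet point of a right event of scale `r`: the window is `[1, q]` -/
def DirR (B : Set ℤ) (r : ℕ) (q : ℤ) : Prop :=
  0 ≤ q ∧ q ≤ (r : ℤ) - 1 ∧ c0 * ((((r : ℤ) - 1) - q : ℤ) : ℝ) ≤ cc * ((r : ℝ) - 1) ∧
    ∀ y : ℕ, 1 ≤ y → 0 ≤ q - y →
      (ms (Cl cc r (B ∩ Ico (0 + 1) (0 + 1 + r))) (q + 1 - y) (q + 1) : ℝ) < c0 * y

/-- the deterministic leaf statement on the left -/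
def LeftLeaf : Prop :=
  ∃ k0 : ℝ, ∀ k ≥ k0, ∀ s ∈ Icc (0 : ℝ) 1, ∀ z ∉ Nset k s, ∀ (r : ℕ) (p : ℤ),
    LeftEv cc (Bm k s (ao k z)) 0 r → DirL (Bm k s (ao k z)) r p →
    1 ≤ |D (ao k z) p (-1)| ∧ ∀ x : ℝ, |x - orb k z p| * |D (ao k z) p (-1)| ≤ 1 / 8 →
      (∀ t : ℤ, 0 - r ≤ t → t < 0 →
        (t ∈ Bm k s (ao k (pt k p (orb k z (p - 1), x))) ↔ t ∈ Bm k s (ao k z))) ∧
      |D (ao k z) p (-1)| ≤ 2 * |D (ao k (pt k p (orb k z (p - 1), x))) p (-1)| ∧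
      |D (ao k (pt k p (orb k z (p - 1), x))) p (-1)| ≤ 2 * |D (ao k z) p (-1)| ∧
      |D (ao k (pt k p (orb k z (p - 1), x))) p (-2)|
        ≤ 1 / 4 * |D (ao k (pt k p (orb k z (p - 1), x))) p (-1)|

/-- the deterministic leaf statement on the right -/
def RightLeaf : Prop :=
  ∃ k0 : ℝ, ∀ k ≥ k0, ∀ s ∈ Icc (0 : ℝ) 1, ∀ z ∉ Nset k s, ∀ (r : ℕ) (q : ℤ),
    RightEv cc (Bp k s (ao k z)) 0 r → DirR (Bp k s (ao k z)) r q →
    1 ≤ |D (ao k z) 1 q| ∧ ∀ x : ℝ, |x - orb k z q| * |D (ao k z) 1 q| ≤ 1 / 8 →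
      (∀ t : ℤ, 0 + 1 ≤ t → t < 0 + 1 + r →
        (t ∈ Bp k s (ao k (pt k (q + 1) (x, orb k z (q + 1)))) ↔ t ∈ Bp k s (ao k z))) ∧
      |D (ao k z) 1 q| ≤ 2 * |D (ao k (pt k (q + 1) (x, orb k z (q + 1)))) 1 q| ∧
      |D (ao k (pt k (q + 1) (x, orb k z (q + 1)))) 1 q| ≤ 2 * |D (ao k z) 1 q| ∧
      |D (ao k (pt k (q + 1) (x, orb k z (q + 1)))) 2 q|
        ≤ 1 / 4 * |D (ao k (pt k (q + 1) (x, orb k z (q + 1)))) 1 q|

/-! ### classes -/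

/-- the left class `(r, p)` of a set `B` -/
def IsL (B : Set ℤ) (r : ℕ) (p : ℤ) : Prop :=
  LeftEv cc B 0 r ∧ (∀ r' < r, ¬ LeftEv cc B 0 r') ∧ DirL B r p ∧ ∀ p' < p, ¬ DirL B r p'

/-- the right class `(r, q)` of a set `B` -/
def IsR (B : Set ℤ) (r : ℕ) (q : ℤ) : Prop :=
  RightEv cc B 0 r ∧ (∀ r' < r, ¬ RightEv cc B 0 r') ∧ DirR B r q ∧ ∀ q' < q, ¬ DirR B r q'

lemma dirL_congr (h : ∀ t : ℤ, 0 - r ≤ t → t < 0 → (t ∈ B' ↔ t ∈ B)) :
    DirL B' r p ↔ DirL B r p := by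
  have e : B' ∩ Ico (0 - (r : ℤ)) 0 = B ∩ Ico (0 - (r : ℤ)) 0 := by
    ext t
    simp only [mem_inter_iff, mem_Ico]
    constructor
    · rintro ⟨h1, h2, h3⟩; exact ⟨(h t h2 h3).1 h1, h2, h3⟩
    · rintro ⟨h1, h2, h3⟩; exact ⟨(h t h2 h3).2 h1, h2, h3⟩
  unfold DirL
  rw [e]

lemma dirR_congr (h : ∀ t : ℤ, 0 + 1 ≤ t → t < 0 + 1 + r → (t ∈ B' ↔ t ∈ B)) :
    DirR B' r q ↔ DirR B r q := by
  have e : B' ∩ Ico (0 + 1) (0 + 1 + (r : ℤ)) = B ∩ Ico (0 + 1) (0 + 1 + (r : ℤ)) := by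
    ext t
    simp only [mem_inter_iff, mem_Ico]
    constructor
    · rintro ⟨h1, h2, h3⟩; exact ⟨(h t h2 h3).1 h1, h2, h3⟩
    · rintro ⟨h1, h2, h3⟩; exact ⟨(h t h2 h3).2 h1, h2, h3⟩
  unfold DirR
  rw [e]

lemma isL_congr (h : ∀ t : ℤ, 0 - r ≤ t → t < 0 → (t ∈ B' ↔ t ∈ B)) :
    IsL B' r p ↔ IsL B r p := by
  unfold IsL
  have h1 : ∀ r' ≤ r, (LeftEv cc B' 0 r' ↔ LeftEv cc B 0 r') := fun r' hr' =>
    leftEv_congr fun i hi1 hi2 => h i (by omega) hi2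
  have h2 : (∀ r' < r, ¬ LeftEv cc B' 0 r') ↔ ∀ r' < r, ¬ LeftEv cc B 0 r' :=
    forall_congr' fun r' => forall_congr' fun hr' => not_congr (h1 r' hr'.le)
  rw [h1 r le_rfl, h2, dirL_congr h]
  simp only [dirL_congr h]

lemma isR_congr (h : ∀ t : ℤ, 0 + 1 ≤ t → t < 0 + 1 + r → (t ∈ B' ↔ t ∈ B)) :
    IsR B' r q ↔ IsR B r q := by
  unfold IsR
  have h1 : ∀ r' ≤ r, (RightEv cc B' 0 r' ↔ RightEv cc B 0 r') := fun r' hr' =>
    rightEv_congr fun i hi1 hi2 => h i hi1 (by omega)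
  have h2 : (∀ r' < r, ¬ RightEv cc B' 0 r') ↔ ∀ r' < r, ¬ RightEv cc B 0 r' :=
    forall_congr' fun r' => forall_congr' fun hr' => not_congr (h1 r' hr'.le)
  rw [h1 r le_rfl, h2, dirR_congr h]
  simp only [dirR_congr h]

lemma IsL.unique {r' : ℕ} {p' : ℤ} (h : IsL B r p) (h' : IsL B r' p') : r = r' ∧ p = p' := by
  have hr : r = r' := by
    rcases lt_trichotomy r r' with hlt | heq | hlt
    · exact absurd h.1 (h'.2.1 r hlt)
    · exact heq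
    · exact absurd h'.1 (h.2.1 r' hlt)
  subst hr
  refine ⟨rfl, ?_⟩
  rcases lt_trichotomy p p' with hlt | heq | hlt
  · exact absurd h.2.2.1 (h'.2.2.2 p hlt)
  · exact heq
  · exact absurd h'.2.2.1 (h.2.2.2 p' hlt)

lemma IsR.unique {r' : ℕ} {q' : ℤ} (h : IsR B r q) (h' : IsR B r' q') : r = r' ∧ q = q' := by
  have hr : r = r' := by
    rcases lt_trichotomy r r' with hlt | heq | hlt
    · exact absurd h.1 (h'.2.1 r hlt)
    · exact heq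
    · exact absurd h'.1 (h.2.1 r' hlt)
  subst hr
  refine ⟨rfl, ?_⟩
  rcases lt_trichotomy q q' with hlt | heq | hlt
  · exact absurd h.2.2.1 (h'.2.2.2 q hlt)
  · exact heq
  · exact absurd h'.2.2.1 (h.2.2.2 q' hlt)

lemma cc_pos : (0 : ℝ) < cc := by unfold cc; positivity

lemma c0_pos : (0 : ℝ) < c0 := by unfold c0; positivity

/-- every left event has a class -/
lemma exists_isL {N : ℕ} (h : ∃ r ≤ N, LeftEv cc B 0 r) :
    ∃ r ≤ N, ∃ m : ℕ, m ≤ N ∧ IsL B r (-(m : ℤ)) := by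
  obtain ⟨r0, hr0, h0⟩ := h
  have hex : ∃ r, LeftEv cc B 0 r := ⟨r0, h0⟩
  classical
  set r := Nat.find hex with hr
  have h1 : LeftEv cc B 0 r := Nat.find_spec hex
  have h2 : ∀ r' < r, ¬ LeftEv cc B 0 r' := fun r' hr' => Nat.find_min hex hr'
  have hrN : r ≤ N := (Nat.find_min' hex h0).trans hr0
  obtain ⟨b', hb1, hb2, hb3, hb4⟩ := h1.exists_dirichlet c0_pos
  have hr1 : 1 ≤ r := h1.1
  have hD : DirL B r b' := by
    refine ⟨by omega, hb2, ?_, hb4⟩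
    have e : b' - (0 - ((r - 1 : ℕ) : ℤ)) = b' + ((r : ℤ) - 1) := by omega
    rw [e] at hb3
    exact hb3
  -- least `p`, i.e. largest `m`
  have hfin : ∃ m : ℕ, DirL B r (-(m : ℤ)) := ⟨b'.natAbs, by
    have : -((b'.natAbs : ℕ) : ℤ) = b' := by omega
    rw [this]; exact hD⟩
  have hbd : ∀ m : ℕ, DirL B r (-(m : ℤ)) → m ≤ r := fun m hm => by
    have := hm.1; omega
  set m := Nat.findGreatest (fun m => DirL B r (-(m : ℤ))) r with hm
  obtain ⟨m0, hm0⟩ := hfin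
  have hspec : DirL B r (-(m : ℤ)) :=
    Nat.findGreatest_spec (P := fun m : ℕ => DirL B r (-(m : ℤ))) (hbd m0 hm0) hm0
  refine ⟨r, hrN, m, (hbd m hspec).trans hrN, h1, h2, hspec, fun p' hp' hD' => ?_⟩
  have h3 : p' = -((p'.natAbs : ℕ) : ℤ) := by have := hD'.2.1; omega
  rw [h3] at hD'
  have h4 := Nat.le_findGreatest (P := fun m : ℕ => DirL B r (-(m : ℤ))) (hbd _ hD') hD'
  omega

/-- every right event has a class -/
lemma exists_isR {N : ℕ} (h : ∃ r ≤ N, RightEv cc B 0 r) :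
    ∃ r ≤ N, ∃ m : ℕ, m ≤ N ∧ IsR B r (m : ℤ) := by
  obtain ⟨r0, hr0, h0⟩ := h
  have hex : ∃ r, RightEv cc B 0 r := ⟨r0, h0⟩
  classical
  set r := Nat.find hex with hr
  have h1 : RightEv cc B 0 r := Nat.find_spec hex
  have h2 : ∀ r' < r, ¬ RightEv cc B 0 r' := fun r' hr' => Nat.find_min hex hr'
  have hrN : r ≤ N := (Nat.find_min' hex h0).trans hr0
  obtain ⟨b', hb1, hb2, hb3, hb4⟩ := h1.exists_dirichlet c0_pos
  have hr1 : 1 ≤ r := h1.1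
  have hD : DirR B r (b' - 1) := by
    refine ⟨by omega, by omega, ?_, ?_⟩
    · have e : ((r : ℤ) - 1) - (b' - 1) = 0 + r - b' := by ring
      rw [e]
      exact hb3
    · intro y hy1 hy2
      have := hb4 y hy1 (by omega)
      rw [show b' - 1 + 1 = b' by ring]
      exact this
  have hfin : ∃ m : ℕ, DirR B r (m : ℤ) := ⟨(b' - 1).natAbs, by
    have : (((b' - 1).natAbs : ℕ) : ℤ) = b' - 1 := by omega
    rw [this]; exact hD⟩
  set m := Nat.find hfin with hm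
  have hspec : DirR B r (m : ℤ) := Nat.find_spec hfin
  refine ⟨r, hrN, m, by have := hspec.2.1; omega, h1, h2, hspec, fun p' hp' hD' => ?_⟩
  have h3 : p' = ((p'.natAbs : ℕ) : ℤ) := by have := hD'.1; omega
  rw [h3] at hD'
  have h4 := Nat.find_min' hfin hD'
  omega

/-! ### measurability -/

lemma meas_dirL (k s : ℝ) (r : ℕ) (p : ℤ) :
    MeasurableSet {z | DirL (Bm k s (ao k z)) r p} := by
  have hm := fun i => meas_Cl (meas_inter_Ico (S := fun z => Bm k s (ao k z))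
    (meas_Bm k s) (0 - r) 0) cc r i
  have h : {z | DirL (Bm k s (ao k z)) r p} =
      {z | (-((r : ℤ) - 1) ≤ p ∧ p ≤ 0 ∧
        c0 * ((p + ((r : ℤ) - 1) : ℤ) : ℝ) ≤ cc * ((r : ℝ) - 1)) ∧ z ∈ ⋂ y : ℕ,
        {z | (1 ≤ y ∧ p + y ≤ 0) → z ∈ {z | (ms (Cl cc r (Bm k s (ao k z) ∩ Ico (0 - r) 0))
          p (p + y) : ℝ) < c0 * y}}} := by
    ext z
    simp only [DirL, mem_ofPred_eq, mem_iInter]
    constructor
    · rintro ⟨h1, h2, h3, h4⟩; exact ⟨⟨h1, h2, h3⟩, fun y hy => h4 y hy.1 hy.2⟩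
    · rintro ⟨⟨h1, h2, h3⟩, h4⟩; exact ⟨h1, h2, h3, fun y hy1 hy2 => h4 y ⟨hy1, hy2⟩⟩
  rw [h]
  exact meas_and (MeasurableSet.iInter fun y => meas_imp (meas_ms_lt hm _ _ _))

lemma meas_dirR (k s : ℝ) (r : ℕ) (q : ℤ) :
    MeasurableSet {z | DirR (Bp k s (ao k z)) r q} := by
  have hm := fun i => meas_Cl (meas_inter_Ico (S := fun z => Bp k s (ao k z))
    (meas_Bp k s) (0 + 1) (0 + 1 + r)) cc r i
  have h : {z | DirR (Bp k s (ao k z)) r q} =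
      {z | (0 ≤ q ∧ q ≤ (r : ℤ) - 1 ∧
        c0 * ((((r : ℤ) - 1) - q : ℤ) : ℝ) ≤ cc * ((r : ℝ) - 1)) ∧ z ∈ ⋂ y : ℕ,
        {z | (1 ≤ y ∧ 0 ≤ q - y) → z ∈ {z |
          (ms (Cl cc r (Bp k s (ao k z) ∩ Ico (0 + 1) (0 + 1 + r)))
          (q + 1 - y) (q + 1) : ℝ) < c0 * y}}} := by
    ext z
    simp only [DirR, mem_ofPred_eq, mem_iInter]
    constructor
    · rintro ⟨h1, h2, h3, h4⟩; exact ⟨⟨h1, h2, h3⟩, fun y hy => h4 y hy.1 hy.2⟩
    · rintro ⟨⟨h1, h2, h3⟩, h4⟩; exact ⟨h1, h2, h3, fun y hy1 hy2 => h4 y ⟨hy1, hy2⟩⟩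
  rw [h]
  exact meas_and (MeasurableSet.iInter fun y => meas_imp (meas_ms_lt hm _ _ _))

lemma meas_isL (k s : ℝ) (r : ℕ) (p : ℤ) :
    MeasurableSet {z | IsL (Bm k s (ao k z)) r p} := by
  have h : {z | IsL (Bm k s (ao k z)) r p} = {z | LeftEv cc (Bm k s (ao k z)) 0 r} ∩
      ((⋂ r' : ℕ, {z | r' < r → z ∈ {z | LeftEv cc (Bm k s (ao k z)) 0 r'}ᶜ}) ∩
      ({z | DirL (Bm k s (ao k z)) r p} ∩
      (⋂ p' : ℤ, {z | p' < p → z ∈ {z | DirL (Bm k s (ao k z)) r p'}ᶜ}))) := by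
    ext z
    simp only [IsL, mem_ofPred_eq, mem_inter_iff, mem_iInter, mem_compl_iff]
  rw [h]
  exact (meas_leftEv (meas_Bm k s) cc 0 r).inter ((MeasurableSet.iInter fun r' =>
    meas_imp (meas_leftEv (meas_Bm k s) cc 0 r').compl).inter ((meas_dirL k s r p).inter
    (MeasurableSet.iInter fun p' => meas_imp (meas_dirL k s r p').compl)))

lemma meas_isR (k s : ℝ) (r : ℕ) (q : ℤ) :
    MeasurableSet {z | IsR (Bp k s (ao k z)) r q} := by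
  have h : {z | IsR (Bp k s (ao k z)) r q} = {z | RightEv cc (Bp k s (ao k z)) 0 r} ∩
      ((⋂ r' : ℕ, {z | r' < r → z ∈ {z | RightEv cc (Bp k s (ao k z)) 0 r'}ᶜ}) ∩
      ({z | DirR (Bp k s (ao k z)) r q} ∩
      (⋂ q' : ℤ, {z | q' < q → z ∈ {z | DirR (Bp k s (ao k z)) r q'}ᶜ}))) := by
    ext z
    simp only [IsR, mem_ofPred_eq, mem_inter_iff, mem_iInter, mem_compl_iff]
  rw [h]
  exact (meas_rightEv (meas_Bp k s) cc 0 r).inter ((MeasurableSet.iInter fun r' =>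
    meas_imp (meas_rightEv (meas_Bp k s) cc 0 r').compl).inter ((meas_dirR k s r q).inter
    (MeasurableSet.iInter fun q' => meas_imp (meas_dirR k s r q').compl)))

/-! ### the sum over classes -/

lemma mQ_univ_le : mQ univ ≤ 1 := by
  unfold mQ
  rw [Measure.restrict_apply_univ]
  unfold Q
  rw [Measure.volume_eq_prod, Measure.prod_prod]
  simp

instance : IsFiniteMeasure mQ := ⟨lt_of_le_of_lt mQ_univ_le ENNReal.one_lt_top⟩

lemma clean_of_notMem (hk : 6561 ≤ k) (hs : s ∈ Icc (0 : ℝ) 1) {z : ℝ × ℝ}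
    (h : (0 : ℤ) ∉ NC k s (ao k z)) : z ∈ Clean k := by
  have h1 : (1 + s) * k ^ (1 - ce) ≤ |ao k z 0| := not_lt.1 h
  have hk1 : 1 ≤ k := by linarith
  have h2 : (9 : ℝ) ≤ k ^ (1 / 4 : ℝ) := by
    have : (9 : ℝ) = (6561 : ℝ) ^ (1 / 4 : ℝ) := by
      rw [show (6561 : ℝ) = 9 ^ (4 : ℝ) by norm_num, ← Real.rpow_mul (by norm_num)]
      norm_num
    rw [this]
    exact Real.rpow_le_rpow (by norm_num) hk (by norm_num)
  have h3 : √k * k ^ (1 / 4 : ℝ) ≤ k ^ (1 - ce) := by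
    rw [Real.sqrt_eq_rpow, ← Real.rpow_add (by linarith)]
    exact Real.rpow_le_rpow_of_exponent_le hk1 (by unfold ce; norm_num)
  have h4 : k ^ (1 - ce) ≤ (1 + s) * k ^ (1 - ce) := by
    have : 0 ≤ k ^ (1 - ce) := by positivity
    nlinarith [hs.1]
  have h5 : √k * 9 ≤ √k * k ^ (1 / 4 : ℝ) := by gcongr
  change 9 * √k ≤ |ao k z 0|
  calc 9 * √k = √k * 9 := mul_comm _ _
    _ ≤ √k * k ^ (1 / 4 : ℝ) := h5
    _ ≤ k ^ (1 - ce) := h3
    _ ≤ (1 + s) * k ^ (1 - ce) := h4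
    _ ≤ |ao k z 0| := h1

/-- **[DECOR]** from the leaf statements. -/
theorem decor_of_leaves (hL : LeftLeaf) (hR : RightLeaf) : Decor := by
  obtain ⟨kL, hL⟩ := hL
  obtain ⟨kR, hR⟩ := hR
  refine ⟨72000, max (max kL kR) 6561, by norm_num, fun k hk s hs N => ?_⟩
  have hkL : k ≥ kL := (le_max_left _ _).trans ((le_max_left _ _).trans hk)
  have hkR : k ≥ kR := (le_max_right _ _).trans ((le_max_left _ _).trans hk)
  have hk6 : 6561 ≤ k := (le_max_right _ _).trans hk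
  set I : Finset (ℕ × ℕ) := Finset.range (N + 1) ×ˢ Finset.range (N + 1) with hI
  set AL : ℕ × ℕ → Set (ℝ × ℝ) := fun x => {z | IsL (Bm k s (ao k z)) x.1 (-(x.2 : ℤ))} with hAL
  set AR : ℕ × ℕ → Set (ℝ × ℝ) := fun x => {z | IsR (Bp k s (ao k z)) x.1 (x.2 : ℤ)} with hAR
  have hALm : ∀ x, MeasurableSet (AL x) := fun x => meas_isL k s _ _
  have hARm : ∀ x, MeasurableSet (AR x) := fun x => meas_isR k s _ _
  have hALp : ∀ x, Per (AL x) := fun x => per_ao k fun a => IsL (Bm k s a) x.1 (-(x.2 : ℤ))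
  have hARp : ∀ x, Per (AR x) := fun x => per_ao k fun a => IsR (Bp k s a) x.1 (x.2 : ℤ)
  have hdp : ∀ {A : Set (ℝ × ℝ)}, Per A → Per (A \ Nset k s) := fun hA z a b => by
    simp only [Set.mem_sdiff, hA z a b, per_Nset k s z a b]
  -- the pair estimate
  have hpair : ∀ x y, mQ ((AL x \ Nset k s) ∩ (AR y \ Nset k s) ∩ Clean k) ≤
      72000 * mQ (AL x) * mQ (AR y) := by
    intro x y
    refine area_clean (by linarith) (p := -(x.2 : ℤ)) (q := (y.2 : ℤ)) (by omega) (by omega)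
      ((hALm x).diff (meas_Nset k s)) (hALm x) ((hARm y).diff (meas_Nset k s)) (hARm y)
      (hdp (hALp x)) (hALp x) (hdp (hARp y)) (hARp y) ?_ ?_
    · rintro z ⟨hz, hzN⟩
      obtain ⟨h1, h2⟩ := hL k hkL s hs z hzN x.1 (-(x.2 : ℤ)) hz.1 hz.2.2.1
      refine ⟨h1, fun t ht => ?_⟩
      obtain ⟨h3, h4⟩ := h2 t ht
      exact ⟨(isL_congr h3).2 hz, h4⟩
    · rintro z ⟨hz, hzN⟩
      obtain ⟨h1, h2⟩ := hR k hkR s hs z hzN y.1 (y.2 : ℤ) hz.1 hz.2.2.1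
      refine ⟨h1, fun t ht => ?_⟩
      obtain ⟨h3, h4⟩ := h2 t ht
      exact ⟨(isR_congr h3).2 hz, h4⟩
  -- the covering
  have hcov : ({z | (0 : ℤ) ∉ Bset k s (ao k z) ∧ (∃ r ≤ N, LeftEv cc (Bm k s (ao k z)) 0 r) ∧
      (∃ r ≤ N, RightEv cc (Bp k s (ao k z)) 0 r)} \ Nset k s) ⊆
      ⋃ x ∈ I, ⋃ y ∈ I, ((AL x \ Nset k s) ∩ (AR y \ Nset k s) ∩ Clean k) := by
    rintro z ⟨⟨-, h1, h2⟩, hzN⟩
    obtain ⟨r, hr, m, hm, h3⟩ := exists_isL h1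
    obtain ⟨r', hr', m', hm', h4⟩ := exists_isR h2
    refine mem_iUnion₂.2 ⟨(r, m), ?_, mem_iUnion₂.2 ⟨(r', m'), ?_, ⟨⟨h3, hzN⟩, ⟨h4, hzN⟩⟩, ?_⟩⟩
    · simp only [hI, Finset.mem_product, Finset.mem_range]
      omega
    · simp only [hI, Finset.mem_product, Finset.mem_range]
      omega
    · refine clean_of_notMem hk6 hs fun h => hzN ?_
      exact Or.inl (Or.inr (Or.inl h))
  have hsumL : ∑ x ∈ I, mQ (AL x) ≤ mQ {z | ∃ r ≤ N, LeftEv cc (Bm k s (ao k z)) 0 r} := by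
    rw [← measure_biUnion_finset]
    · refine measure_mono (iUnion₂_subset fun x hx z hz => ?_)
      simp only [hI, Finset.mem_product, Finset.mem_range] at hx
      exact ⟨x.1, by omega, hz.1⟩
    · intro x _ y _ hxy
      refine Set.disjoint_left.2 fun z hz hz' => hxy ?_
      obtain ⟨h1, h2⟩ := IsL.unique hz hz'
      exact Prod.ext h1 (by omega)
    · exact fun x _ => hALm x
  have hsumR : ∑ x ∈ I, mQ (AR x) ≤ mQ {z | ∃ r ≤ N, RightEv cc (Bp k s (ao k z)) 0 r} := by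
    rw [← measure_biUnion_finset]
    · refine measure_mono (iUnion₂_subset fun x hx z hz => ?_)
      simp only [hI, Finset.mem_product, Finset.mem_range] at hx
      exact ⟨x.1, by omega, hz.1⟩
    · intro x _ y _ hxy
      refine Set.disjoint_left.2 fun z hz hz' => hxy ?_
      obtain ⟨h1, h2⟩ := IsR.unique hz hz'
      exact Prod.ext h1 (by omega)
    · exact fun x _ => hARm x
  have hmain : mQ ({z | (0 : ℤ) ∉ Bset k s (ao k z) ∧
      (∃ r ≤ N, LeftEv cc (Bm k s (ao k z)) 0 r) ∧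
      (∃ r ≤ N, RightEv cc (Bp k s (ao k z)) 0 r)} \ Nset k s) ≤
      72000 * mQ {z | ∃ r ≤ N, LeftEv cc (Bm k s (ao k z)) 0 r} *
        mQ {z | ∃ r ≤ N, RightEv cc (Bp k s (ao k z)) 0 r} := by
    calc _ ≤ mQ (⋃ x ∈ I, ⋃ y ∈ I, ((AL x \ Nset k s) ∩ (AR y \ Nset k s) ∩ Clean k)) :=
          measure_mono hcov
      _ ≤ ∑ x ∈ I, mQ (⋃ y ∈ I, ((AL x \ Nset k s) ∩ (AR y \ Nset k s) ∩ Clean k)) :=
          measure_biUnion_finset_le _ _
      _ ≤ ∑ x ∈ I, ∑ y ∈ I, mQ ((AL x \ Nset k s) ∩ (AR y \ Nset k s) ∩ Clean k) :=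
          Finset.sum_le_sum fun x _ => measure_biUnion_finset_le _ _
      _ ≤ ∑ x ∈ I, ∑ y ∈ I, 72000 * mQ (AL x) * mQ (AR y) :=
          Finset.sum_le_sum fun x _ => Finset.sum_le_sum fun y _ => hpair x y
      _ = 72000 * (∑ x ∈ I, mQ (AL x)) * ∑ y ∈ I, mQ (AR y) := by
          rw [mul_assoc, Finset.sum_mul_sum, Finset.mul_sum]
          refine Finset.sum_congr rfl fun x _ => ?_
          rw [Finset.mul_sum]
          refine Finset.sum_congr rfl fun y _ => ?_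
          rw [mul_assoc]
      _ ≤ _ := by gcongr
  rw [measureReal_def, measureReal_def, measureReal_def]
  have h72 : (72000 : ℝ) = (72000 : ENNReal).toReal := by simp
  rw [h72, ← ENNReal.toReal_mul, ← ENNReal.toReal_mul]
  refine ENNReal.toReal_mono ?_ hmain
  exact ENNReal.mul_ne_top (ENNReal.mul_ne_top (by simp) (measure_ne_top _ _))
    (measure_ne_top _ _)

end Vale.Agent.P108.Area
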