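import Vale.Agent.P108.Area.Curve
import Mathlib.MeasureTheory.Covering.Vitali

/-!
# P108: the area product estimate `mQ (A₀ ∩ B₀) ≤ C mQ A mQ B`
-/

open MeasureTheory Filter Set Topology

namespace Vale.Agent.P108.Area

open Vale.Agent.P108 Vale.Agent.P108.Dyn Vale.Agent.P108.H504 Vale.Agent.P108.H786

variable {k : ℝ}

/-- `A₀` is surrounded in `A` by unstable leaves (`x_{p-1}` fixed, `x_p` moves), on which `x_1`
moves by at least `1/64` on each side and `x_0` moves at most `1/4` as much. -/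
def Unst (k : ℝ) (p : ℤ) (A₀ A : Set (ℝ × ℝ)) : Prop :=
  ∀ z ∈ A₀, 1 ≤ |D (ao k z) p 0| ∧ ∀ s, |s - orb k z p| * |D (ao k z) p 0| ≤ 1 / 16 →
    pt k p (orb k z (p - 1), s) ∈ A ∧
    |D (ao k z) p 0| ≤ 4 * |D (ao k (pt k p (orb k z (p - 1), s))) p 0| ∧
    |D (ao k (pt k p (orb k z (p - 1), s))) p 0| ≤ 4 * |D (ao k z) p 0| ∧
    |D (ao k (pt k p (orb k z (p - 1), s))) p (-1)|
      ≤ 1 / 4 * |D (ao k (pt k p (orb k z (p - 1), s))) p 0|

/-- `B₀` is surrounded in `B` by stable leaves (`x_{q+1}` fixed, `x_q` moves), on which `x_0`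
moves by at least `1/32` on each side and `x_1` moves at most `1/4` as much. -/
def Stab (k : ℝ) (q : ℤ) (B₀ B : Set (ℝ × ℝ)) : Prop :=
  ∀ z ∈ B₀, 1 ≤ |D (ao k z) 1 q| ∧ ∀ s, |s - orb k z q| * |D (ao k z) 1 q| ≤ 1 / 8 →
    pt k (q + 1) (s, orb k z (q + 1)) ∈ B ∧
    |D (ao k z) 1 q| ≤ 4 * |D (ao k (pt k (q + 1) (s, orb k z (q + 1)))) 1 q| ∧
    |D (ao k (pt k (q + 1) (s, orb k z (q + 1)))) 1 q| ≤ 4 * |D (ao k z) 1 q| ∧
    |D (ao k (pt k (q + 1) (s, orb k z (q + 1)))) 2 q|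
      ≤ 1 / 4 * |D (ao k (pt k (q + 1) (s, orb k z (q + 1)))) 1 q|

lemma mem_uIcc_abs {a b x : ℝ} (hx : x ∈ uIcc a b) : |x - a| ≤ |b - a| := by
  rcases le_total a b with h | h
  · rw [uIcc_of_le h] at hx
    rw [abs_of_nonneg (by linarith [hx.1]), abs_of_nonneg (by linarith)]
    linarith [hx.2]
  · rw [uIcc_of_ge h] at hx
    rw [abs_of_nonpos (by linarith [hx.2]), abs_of_nonpos (by linarith)]
    linarith [hx.1]

/-- consequences of `Stab` along a stable line: for `z ∈ B₀` and `z'` on the line `x_{q+1}` fixed -/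
lemma Stab.line {q : ℤ} (hq : 0 ≤ q) {B₀ B : Set (ℝ × ℝ)} (hS : Stab k q B₀ B) {z : ℝ × ℝ}
    (hz : z ∈ B₀) {s : ℝ} (hs : |s - orb k z q| * |D (ao k z) 1 q| ≤ 1 / 8) :
    |orb k (pt k (q + 1) (s, orb k z (q + 1))) 0 - orb k z 0|
        ≤ 4 * (|s - orb k z q| * |D (ao k z) 1 q|) ∧
    |orb k (pt k (q + 1) (s, orb k z (q + 1))) 1 - orb k z 1|
        ≤ 1 / 4 * |orb k (pt k (q + 1) (s, orb k z (q + 1))) 0 - orb k z 0| := by
  obtain ⟨h1, h2⟩ := hS z hz
  have hD : 0 < |D (ao k z) 1 q| := by linarith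
  have hz0 : pt k (q + 1) (orb k z q, orb k z (q + 1)) = z := by
    have := pt_orb k (q + 1) z
    rwa [add_sub_cancel_right] at this
  have hin : ∀ t ∈ uIcc (orb k z q) s, |t - orb k z q| * |D (ao k z) 1 q| ≤ 1 / 8 := by
    intro t ht
    exact (mul_le_mul_of_nonneg_right (mem_uIcc_abs ht) hD.le).trans hs
  have hd0 : ∀ t, HasDerivAt (fun s => orb k (pt k (q + 1) (s, orb k z (q + 1))) 0)
      (D (ao k (pt k (q + 1) (t, orb k z (q + 1)))) 1 q) t := by
    intro t
    have := hasDerivAt_orb_left k (orb k z (q + 1)) q (i := 0) (by omega) t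
    rwa [zero_add] at this
  have hd1 : ∀ t, HasDerivAt (fun s => orb k (pt k (q + 1) (s, orb k z (q + 1))) 1)
      (D (ao k (pt k (q + 1) (t, orb k z (q + 1)))) 2 q) t := by
    intro t
    have := hasDerivAt_orb_left k (orb k z (q + 1)) q (i := 1) (by omega) t
    rwa [show (1 : ℤ) + 1 = 2 by norm_num] at this
  constructor
  · obtain ⟨c, hc, h3⟩ := mvt (a := orb k z q) (b := s) (fun x _ => hd0 x)
    simp only [hz0] at h3
    rw [h3, abs_mul]
    have h4 := (h2 c (hin c hc)).2.2.1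
    calc |D (ao k (pt k (q + 1) (c, orb k z (q + 1)))) 1 q| * |s - orb k z q|
        ≤ (4 * |D (ao k z) 1 q|) * |s - orb k z q| :=
          mul_le_mul_of_nonneg_right h4 (abs_nonneg _)
      _ = _ := by ring
  · have := cauchy_cmp (a := orb k z q) (b := s) (η := 1 / 4) (fun x _ => hd0 x)
      (fun x _ => hd1 x) (fun x hx => (h2 x (hin x hx)).2.2.2) (fun x hx h0 => by
        have := (h2 x (hin x hx)).2.1
        rw [h0, abs_zero] at this
        linarith)
    simp only [hz0] at this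
    exact this

/-- the piece lemma -/
theorem piece {p q : ℤ} (hp : p ≤ 1) (hq : 0 ≤ q) {B₀ B : Set (ℝ × ℝ)}
    (hB₀m : MeasurableSet B₀) (hBm : MeasurableSet B) (hB : Per B) (hS : Stab k q B₀ B)
    {c s₀ r d : ℝ} (hd : 0 < d) (hr : r * d ≤ 1 / 16)
    (hU : ∀ s, |s - s₀| ≤ r → d / 4 ≤ |D (ao k (pt k p (c, s))) p 0| ∧
      |D (ao k (pt k p (c, s))) p 0| ≤ 4 * d ∧
      |D (ao k (pt k p (c, s))) p (-1)| ≤ 1 / 4 * |D (ao k (pt k p (c, s))) p 0|) :
    ENNReal.ofReal (d / 600) * volume {s | |s - s₀| ≤ r ∧ pt k p (c, s) ∈ B₀} ≤ mQ B := by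
  set E : Set ℝ := {s | |s - s₀| ≤ r ∧ pt k p (c, s) ∈ B₀} with hE
  have hcont : Continuous fun s : ℝ => pt k p (c, s) := (continuous_pt k p).comp (by fun_prop)
  have hEm : MeasurableSet E := by
    have h1 : MeasurableSet {s : ℝ | |s - s₀| ≤ r} :=
      measurableSet_le (by fun_prop) measurable_const
    exact h1.inter (hcont.measurable hB₀m)
  set Z : ℝ → ℝ × ℝ := fun s => pt k p (c, s) with hZ
  set W : Set (ℝ × ℝ) := {w | pt k (q + 1) (w.2, w.1) ∈ B} with hW
  -- `W` is periodic and has the measure of `B`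
  have hWP : Per W := by
    intro w a b
    simp only [hW, mem_ofPred_eq]
    have h1 : (((w + ip a b).2, (w + ip a b).1) : ℝ × ℝ) = (w.2, w.1) + ip b a := by
      unfold ip; ext <;> simp
    rw [h1]
    exact (hB.pt k (q + 1)) _ _ _
  have hWv : mQ W = mQ B := by
    rw [← mQ_pt hB hBm k (q + 1), mQ_eq]
    have hm : MeasurableSet {w | pt k (q + 1) w ∈ B} := measurable_pt k (q + 1) hBm
    exact (Measure.measurePreserving_swap (μ := volume.restrict (Ico (0 : ℝ) 1))
      (ν := volume.restrict (Ico (0 : ℝ) 1))).measure_preimage hm.nullMeasurableSet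
  rw [← hWv]
  have hu : Continuous fun s => orb k (Z s) q := (continuous_orb k q).comp hcont
  have hDR : Continuous fun s => D (ao k (Z s)) 1 q := (continuous_D k 1 q).comp hcont
  have hd1 : ∀ t, HasDerivAt (fun s => orb k (Z s) 1) (D (ao k (Z t)) p 0) t := by
    intro t
    have := hasDerivAt_orb_right k c p (i := 1) (by omega) t
    rwa [sub_self] at this
  have hd0 : ∀ t, HasDerivAt (fun s => orb k (Z s) 0) (D (ao k (Z t)) p (-1)) t := by
    intro t
    have := hasDerivAt_orb_right k c p (i := 0) (by omega) t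
    rwa [zero_sub] at this
  have hdg : ∀ t, HasDerivAt (fun s => orb k (Z s) (q + 1)) (D (ao k (Z t)) p q) t := by
    intro t
    have := hasDerivAt_orb_right k c p (i := q + 1) (by omega) t
    rwa [add_sub_cancel_right] at this
  have hball : ∀ {s s' : ℝ}, |s - s₀| ≤ r → |s' - s₀| ≤ r → ∀ x ∈ uIcc s s', |x - s₀| ≤ r := by
    intro s s' h1 h2 x hx
    rw [abs_le] at h1 h2 ⊢
    rcases le_total s s' with h | h
    · rw [uIcc_of_le h] at hx
      exact ⟨by linarith [hx.1], by linarith [hx.2]⟩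
    · rw [uIcc_of_ge h] at hx
      exact ⟨by linarith [hx.1], by linarith [hx.2]⟩
  -- geometry of the unstable line
  have hgeo : ∀ {s s' : ℝ}, |s - s₀| ≤ r → |s' - s₀| ≤ r →
      |orb k (Z s') 1 - orb k (Z s) 1| ≤ 1 / 2 ∧
      |orb k (Z s') 0 - orb k (Z s) 0| ≤ 1 / 4 * |orb k (Z s') 1 - orb k (Z s) 1| ∧
      (orb k (Z s') 1 = orb k (Z s) 1 → s = s') := by
    intro s s' h1 h2
    obtain ⟨ξ, hξ, h3⟩ := mvt (a := s) (b := s') (fun x _ => hd1 x)
    have h4 := hU ξ (hball h1 h2 ξ hξ)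
    have h5 : |s' - s| ≤ 2 * r := by
      rw [abs_le] at h1 h2 ⊢
      constructor <;> linarith [h1.1, h1.2, h2.1, h2.2]
    refine ⟨?_, ?_, ?_⟩
    · rw [h3, abs_mul]
      calc |D (ao k (Z ξ)) p 0| * |s' - s| ≤ (4 * d) * (2 * r) :=
            mul_le_mul h4.2.1 h5 (abs_nonneg _) (by linarith)
        _ ≤ 1 / 2 := by linarith
    · exact cauchy_cmp (a := s) (b := s') (η := 1 / 4) (fun x _ => hd1 x) (fun x _ => hd0 x)
        (fun x hx => (hU x (hball h1 h2 x hx)).2.2) (fun x hx h0 => by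
          have := (hU x (hball h1 h2 x hx)).1
          rw [h0, abs_zero] at this
          linarith)
    · intro h6
      rw [h6, sub_self] at h3
      rcases mul_eq_zero.1 h3.symm with h7 | h7
      · have := h4.1
        rw [h7, abs_zero] at this
        linarith
      · linarith
  refine curve_bound hEm (g := fun s => orb k (Z s) (q + 1)) (g' := fun s => D (ao k (Z s)) p q)
    (u₀ := fun s => orb k (Z s) q) (L := fun s => 1 / (136 * |D (ao k (Z s)) 1 q|))
    (fun s _ => hdg s) ((continuous_D k p q).comp hcont).measurable hu.measurable ?_ ?_ hWP ?_ ?_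
  · -- measurability of `L`
    exact measurable_const.div ((hDR.abs.measurable).const_mul 136)
  · -- lower bound of the Jacobian
    rintro s ⟨h1, h2⟩
    obtain ⟨h3, h4⟩ := hS _ h2
    have hDpos : 0 < |D (ao k (Z s)) 1 q| := by
      have : 1 ≤ |D (ao k (Z s)) 1 q| := h3
      linarith
    have h5 := h4 (orb k (Z s) q) (by
      have : |orb k (Z s) q - orb k (Z s) q| * |D (ao k (Z s)) 1 q| ≤ 1 / 8 := by
        rw [sub_self, abs_zero, zero_mul]; norm_num
      exact this)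
    have hz0 : pt k (q + 1) (orb k (Z s) q, orb k (Z s) (q + 1)) = Z s := by
      have := pt_orb k (q + 1) (Z s)
      rwa [add_sub_cancel_right] at this
    have h6 : |D (ao k (Z s)) 2 q| ≤ 1 / 4 * |D (ao k (Z s)) 1 q| := by
      have := h5.2.2.2
      have e : pt k (q + 1) (orb k (Z s) q, orb k (pt k p (c, s)) (q + 1)) = Z s := hz0
      rwa [e] at this
    obtain ⟨h7, h8, h9⟩ := hU s h1
    have h10 : D (ao k (Z s)) p q = D (ao k (Z s)) p 0 * D (ao k (Z s)) 1 q
        - D (ao k (Z s)) p (-1) * D (ao k (Z s)) 2 q := by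
      have := D_concat (ao k (Z s)) (p := p) (q := q) (j := 0) (by omega) hq
      simpa using this
    have h11 : d / 4 * |D (ao k (Z s)) 1 q| * (15 / 16) ≤ |D (ao k (Z s)) p q| := by
      have e1 : |D (ao k (Z s)) p 0 * D (ao k (Z s)) 1 q|
          = |D (ao k (Z s)) p 0| * |D (ao k (Z s)) 1 q| := abs_mul _ _
      have e2 : |D (ao k (Z s)) p (-1) * D (ao k (Z s)) 2 q|
          ≤ (1 / 4 * |D (ao k (Z s)) p 0|) * (1 / 4 * |D (ao k (Z s)) 1 q|) := by
        rw [abs_mul]
        exact mul_le_mul h9 h6 (abs_nonneg _) (by positivity)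
      have e3 : |D (ao k (Z s)) p 0 * D (ao k (Z s)) 1 q|
          - |D (ao k (Z s)) p (-1) * D (ao k (Z s)) 2 q| ≤ |D (ao k (Z s)) p q| := by
        rw [h10]; exact abs_sub_abs_le_abs_sub _ _
      have e4 : d / 4 * |D (ao k (Z s)) 1 q| ≤ |D (ao k (Z s)) p 0| * |D (ao k (Z s)) 1 q| :=
        mul_le_mul_of_nonneg_right h7 hDpos.le
      rw [e1] at e3
      nlinarith [e2, e3, e4]
    rw [mul_one_div, le_div_iff₀ (by positivity)]
    nlinarith [h11, mul_pos hd hDpos]
  · -- the image lies in `W`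
    rintro s ⟨h1, h2⟩ t h3 h4
    obtain ⟨h5, h6⟩ := hS _ h2
    have hDpos : 0 < |D (ao k (Z s)) 1 q| := by
      have : 1 ≤ |D (ao k (Z s)) 1 q| := h5
      linarith
    have h7 : |t - orb k (Z s) q| * |D (ao k (Z s)) 1 q| ≤ 1 / 8 := by
      rw [abs_of_nonneg (by linarith)]
      have : t - orb k (Z s) q ≤ 1 / (136 * |D (ao k (Z s)) 1 q|) := by linarith
      calc (t - orb k (Z s) q) * |D (ao k (Z s)) 1 q|
          ≤ 1 / (136 * |D (ao k (Z s)) 1 q|) * |D (ao k (Z s)) 1 q| :=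
            mul_le_mul_of_nonneg_right this hDpos.le
        _ = 1 / 136 := by field_simp
        _ ≤ 1 / 8 := by norm_num
    exact (h6 t h7).1
  · -- injectivity modulo `ℤ²`
    rintro s ⟨h1, h2⟩ t h3 h4 s' ⟨h1', h2'⟩ t' h3' h4' a b heq
    obtain ⟨h5, h6⟩ := hS _ h2
    obtain ⟨h5', h6'⟩ := hS _ h2'
    have hDpos : 0 < |D (ao k (Z s)) 1 q| := by
      have : 1 ≤ |D (ao k (Z s)) 1 q| := h5
      linarith
    have hDpos' : 0 < |D (ao k (Z s')) 1 q| := by
      have : 1 ≤ |D (ao k (Z s')) 1 q| := h5'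
      linarith
    have h7 : |t - orb k (Z s) q| * |D (ao k (Z s)) 1 q| ≤ 1 / 136 := by
      rw [abs_of_nonneg (by linarith)]
      have : t - orb k (Z s) q ≤ 1 / (136 * |D (ao k (Z s)) 1 q|) := by linarith
      calc (t - orb k (Z s) q) * |D (ao k (Z s)) 1 q|
          ≤ 1 / (136 * |D (ao k (Z s)) 1 q|) * |D (ao k (Z s)) 1 q| :=
            mul_le_mul_of_nonneg_right this hDpos.le
        _ = 1 / 136 := by field_simp
    have h7' : |t' - orb k (Z s') q| * |D (ao k (Z s')) 1 q| ≤ 1 / 136 := by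
      rw [abs_of_nonneg (by linarith)]
      have : t' - orb k (Z s') q ≤ 1 / (136 * |D (ao k (Z s')) 1 q|) := by linarith
      calc (t' - orb k (Z s') q) * |D (ao k (Z s')) 1 q|
          ≤ 1 / (136 * |D (ao k (Z s')) 1 q|) * |D (ao k (Z s')) 1 q| :=
            mul_le_mul_of_nonneg_right this hDpos'.le
        _ = 1 / 136 := by field_simp
    obtain ⟨l0, l1⟩ := hS.line hq h2 (s := t) (by
      have : |t - orb k (pt k p (c, s)) q| * |D (ao k (pt k p (c, s))) 1 q| ≤ 1 / 136 := h7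
      linarith)
    obtain ⟨l0', l1'⟩ := hS.line hq h2' (s := t') (by
      have : |t' - orb k (pt k p (c, s')) q| * |D (ao k (pt k p (c, s'))) 1 q| ≤ 1 / 136 := h7'
      linarith)
    obtain ⟨g1, g2, g3⟩ := hgeo h1 h1'
    -- the two points
    set w : ℝ × ℝ := pt k (q + 1) (t, orb k (Z s) (q + 1)) with hw
    set w' : ℝ × ℝ := pt k (q + 1) (t', orb k (Z s') (q + 1)) with hw'
    have eg : orb k (Z s') (q + 1) = orb k (Z s) (q + 1) + a := by
      have := congrArg Prod.fst heq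
      simpa [ip] using this
    have et : t' = t + b := by
      have := congrArg Prod.snd heq
      simpa [ip] using this
    obtain ⟨m, n, hmn⟩ : ∃ m n : ℤ, w' = w + ip m n := by
      refine ⟨a - (q + 1) * (a - b), a - b, ?_⟩
      rw [hw', hw, ← pt_add_ip]
      congr 1
      unfold ip
      ext
      · simp [et]
      · simp [eg]
    have o0 : orb k w' 0 = orb k w 0 + m := by
      rw [hmn, orb_add_ip]; simp
    have o1 : orb k w' 1 = orb k w 1 + (m + n) := by
      rw [hmn, orb_add_ip]; simp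
    have l0a : |orb k w 0 - orb k (Z s) 0| ≤ 1 / 20 := by
      have : |orb k w 0 - orb k (Z s) 0| ≤ 4 * (|t - orb k (Z s) q| * |D (ao k (Z s)) 1 q|) := l0
      linarith
    have l1a : |orb k w 1 - orb k (Z s) 1| ≤ 1 / 80 := by
      have : |orb k w 1 - orb k (Z s) 1| ≤ 1 / 4 * |orb k w 0 - orb k (Z s) 0| := l1
      linarith
    have l0b : |orb k w' 0 - orb k (Z s') 0| ≤ 1 / 20 := by
      have : |orb k w' 0 - orb k (Z s') 0|
        ≤ 4 * (|t' - orb k (Z s') q| * |D (ao k (Z s')) 1 q|) := l0'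
      linarith
    have l1b : |orb k w' 1 - orb k (Z s') 1| ≤ 1 / 80 := by
      have : |orb k w' 1 - orb k (Z s') 1| ≤ 1 / 4 * |orb k w' 0 - orb k (Z s') 0| := l1'
      linarith
    have hm : m = 0 := by
      have e : |(m : ℝ)| < 1 := by
        have e1 : (m : ℝ) = orb k w' 0 - orb k w 0 := by rw [o0]; ring
        rw [e1]
        rw [abs_le] at l0a l0b
        have g2' := abs_le.1 (g2.trans (mul_le_mul_of_nonneg_left g1 (by norm_num)))
        rw [abs_lt]
        constructor <;> linarith [l0a.1, l0a.2, l0b.1, l0b.2, g2'.1, g2'.2]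
      have e2 : |m| < 1 := by exact_mod_cast e
      exact Int.abs_lt_one_iff.1 e2
    have hn : n = 0 := by
      have e : |((m + n : ℤ) : ℝ)| < 1 := by
        have e1 : ((m + n : ℤ) : ℝ) = orb k w' 1 - orb k w 1 := by rw [o1]; push_cast; ring
        rw [e1]
        rw [abs_le] at l1a l1b
        have g1' := abs_le.1 g1
        rw [abs_lt]
        constructor <;> linarith [l1a.1, l1a.2, l1b.1, l1b.2, g1'.1, g1'.2]
      have e2 : |m + n| < 1 := by exact_mod_cast e
      have e3 := Int.abs_lt_one_iff.1 e2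
      omega
    have hww : w' = w := by rw [hmn, hm, hn]; unfold ip; simp
    have htt : t' = t := by
      have e1 : orb k w q = t := by
        have := orb_pt_pred k (q + 1) (t, orb k (Z s) (q + 1))
        rwa [add_sub_cancel_right] at this
      have e2 : orb k w' q = t' := by
        have := orb_pt_pred k (q + 1) (t', orb k (Z s') (q + 1))
        rwa [add_sub_cancel_right] at this
      rw [← e1, ← e2, hww]
    have hgg : orb k (Z s') (q + 1) = orb k (Z s) (q + 1) := by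
      have e1 : orb k w (q + 1) = orb k (Z s) (q + 1) := orb_pt_self k (q + 1) _
      have e2 : orb k w' (q + 1) = orb k (Z s') (q + 1) := orb_pt_self k (q + 1) _
      rw [← e1, ← e2, hww]
    have hb : b = 0 := by
      have : (b : ℝ) = 0 := by linarith
      exact_mod_cast this
    have ha : a = 0 := by
      have : (a : ℝ) = 0 := by linarith
      exact_mod_cast this
    refine ⟨?_, ha, hb⟩
    -- `Z s` and `Z s'` lie on the same stable line
    have c1 : |D (ao k (Z s)) 1 q| ≤ 4 * |D (ao k w) 1 q| := by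
      have := (h6 t (by
        have : |t - orb k (pt k p (c, s)) q| * |D (ao k (pt k p (c, s))) 1 q| ≤ 1 / 136 := h7
        linarith)).2.1
      exact this
    have c2 : |D (ao k w) 1 q| ≤ 4 * |D (ao k (Z s')) 1 q| := by
      have := (h6' t' (by
        have : |t' - orb k (pt k p (c, s')) q| * |D (ao k (pt k p (c, s'))) 1 q| ≤ 1 / 136 := h7'
        linarith)).2.2.1
      have e : |D (ao k w') 1 q| ≤ 4 * |D (ao k (Z s')) 1 q| := this
      rwa [hww] at e
    have c3 : |orb k (Z s') q - orb k (Z s) q| * |D (ao k (Z s)) 1 q| ≤ 1 / 8 := by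
      have e1 : |orb k (Z s') q - orb k (Z s) q|
          ≤ |t - orb k (Z s) q| + |t' - orb k (Z s') q| := by
        rw [htt]
        calc |orb k (Z s') q - orb k (Z s) q|
            = |(t - orb k (Z s) q) - (t - orb k (Z s') q)| := by congr 1; ring
          _ ≤ _ := abs_sub _ _
      have e2 : |t' - orb k (Z s') q| * |D (ao k (Z s)) 1 q| ≤ 16 * (1 / 136) := by
        calc |t' - orb k (Z s') q| * |D (ao k (Z s)) 1 q|
            ≤ |t' - orb k (Z s') q| * (16 * |D (ao k (Z s')) 1 q|) :=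
              mul_le_mul_of_nonneg_left (by linarith) (abs_nonneg _)
          _ = 16 * (|t' - orb k (Z s') q| * |D (ao k (Z s')) 1 q|) := by ring
          _ ≤ _ := by linarith
      calc |orb k (Z s') q - orb k (Z s) q| * |D (ao k (Z s)) 1 q|
          ≤ (|t - orb k (Z s) q| + |t' - orb k (Z s') q|) * |D (ao k (Z s)) 1 q| :=
            mul_le_mul_of_nonneg_right e1 (abs_nonneg _)
        _ = |t - orb k (Z s) q| * |D (ao k (Z s)) 1 q|
            + |t' - orb k (Z s') q| * |D (ao k (Z s)) 1 q| := by ring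
        _ ≤ 1 / 136 + 16 * (1 / 136) := add_le_add h7 e2
        _ = 1 / 8 := by norm_num
    obtain ⟨_, c4⟩ := hS.line hq h2 (s := orb k (Z s') q) c3
    have c5 : pt k (q + 1) (orb k (Z s') q, orb k (pt k p (c, s)) (q + 1)) = Z s' := by
      have e1 := pt_orb k (q + 1) (Z s')
      rw [add_sub_cancel_right, hgg] at e1
      exact e1
    rw [c5] at c4
    have c6 : |orb k (Z s') 1 - orb k (Z s) 1| ≤ 1 / 4 * |orb k (Z s') 0 - orb k (Z s) 0| := c4
    have c7 : |orb k (Z s') 1 - orb k (Z s) 1| = 0 := by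
      have := abs_nonneg (orb k (Z s') 1 - orb k (Z s) 1)
      linarith
    exact g3 (sub_eq_zero.1 (abs_eq_zero.1 c7))

/-- the slices of a periodic set are periodic -/
lemma volume_slice {A : Set (ℝ × ℝ)} (hA : Per A) (hAm : MeasurableSet A) (k : ℝ) (p : ℤ) (c : ℝ) :
    volume ({s | pt k p (c, s) ∈ A} ∩ Ico (-1) 2) ≤
      3 * volume ({s | pt k p (c, s) ∈ A} ∩ Ico 0 1) := by
  set V : Set ℝ := {s | pt k p (c, s) ∈ A} with hV
  have hVm : MeasurableSet V := ((continuous_pt k p).comp (by fun_prop)).measurable hAm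
  have hper : ∀ (s : ℝ) (n : ℤ), s + n ∈ V ↔ s ∈ V := by
    intro s n
    simp only [hV, mem_ofPred_eq]
    have h1 : ((c, s + n) : ℝ × ℝ) = (c, s) + ip 0 n := by
      unfold ip; ext <;> simp
    rw [h1, pt_add_ip]
    exact hA _ _ _
  have hshift : ∀ n : ℤ, volume (V ∩ Ico (n : ℝ) (n + 1)) = volume (V ∩ Ico 0 1) := by
    intro n
    have h1 : V ∩ Ico (0 : ℝ) 1 = (fun s => s + (n : ℝ)) ⁻¹' (V ∩ Ico (n : ℝ) (n + 1)) := by
      ext s
      simp only [mem_inter_iff, mem_preimage, mem_Ico, hper]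
      constructor
      · rintro ⟨h1, h2, h3⟩
        exact ⟨h1, by linarith, by linarith⟩
      · rintro ⟨h1, h2, h3⟩
        exact ⟨h1, by linarith, by linarith⟩
    rw [h1, measure_preimage_add_right]
  have hsub : V ∩ Ico (-1) 2 ⊆ (V ∩ Ico ((-1 : ℤ) : ℝ) (((-1 : ℤ) : ℝ) + 1)) ∪
      ((V ∩ Ico ((0 : ℤ) : ℝ) (((0 : ℤ) : ℝ) + 1)) ∪
        (V ∩ Ico ((1 : ℤ) : ℝ) (((1 : ℤ) : ℝ) + 1))) := by
    rintro s ⟨h1, h2, h3⟩
    push_cast
    rcases lt_or_ge s 0 with h | h
    · exact Or.inl ⟨h1, h2, by linarith⟩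
    · rcases lt_or_ge s 1 with h' | h'
      · exact Or.inr (Or.inl ⟨h1, h, by linarith⟩)
      · exact Or.inr (Or.inr ⟨h1, h', by linarith⟩)
  calc volume (V ∩ Ico (-1) 2) ≤ _ := measure_mono hsub
    _ ≤ volume (V ∩ Ico ((-1 : ℤ) : ℝ) (((-1 : ℤ) : ℝ) + 1)) +
        (volume (V ∩ Ico ((0 : ℤ) : ℝ) (((0 : ℤ) : ℝ) + 1)) +
        volume (V ∩ Ico ((1 : ℤ) : ℝ) (((1 : ℤ) : ℝ) + 1))) :=
        (measure_union_le _ _).trans (by gcongr; exact measure_union_le _ _)
    _ = 3 * volume (V ∩ Ico 0 1) := by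
        rw [hshift, hshift, hshift]
        ring

/-- the estimate on one line `x_{p-1} = c` -/
theorem slice {p q : ℤ} (hp : p ≤ 1) (hq : 0 ≤ q) {A₀ A B₀ B : Set (ℝ × ℝ)}
    (hAm : MeasurableSet A) (hB₀m : MeasurableSet B₀)
    (hBm : MeasurableSet B) (hA : Per A) (hB : Per B)
    (hU : Unst k p A₀ A) (hS : Stab k q B₀ B) (c : ℝ) :
    volume ({s | pt k p (c, s) ∈ A₀ ∩ B₀} ∩ Ico 0 1) ≤
      72000 * mQ B * volume ({s | pt k p (c, s) ∈ A} ∩ Ico 0 1) := by
  set Ec : Set ℝ := {s | pt k p (c, s) ∈ A₀ ∩ B₀} ∩ Ico 0 1 with hEc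
  set V : Set ℝ := {s | pt k p (c, s) ∈ A} with hV
  set dd : ℝ → ℝ := fun s => |D (ao k (pt k p (c, s))) p 0| with hdd
  set r : ℝ → ℝ := fun s => 1 / (80 * dd s) with hr
  have hp1 : ∀ s, orb k (pt k p (c, s)) (p - 1) = c := fun s => orb_pt_pred k p (c, s)
  have hp2 : ∀ s, orb k (pt k p (c, s)) p = s := fun s => orb_pt_self k p (c, s)
  have hd1 : ∀ s ∈ Ec, 1 ≤ dd s := fun s hs => (hU _ hs.1.1).1
  have hline : ∀ b ∈ Ec, ∀ s, |s - b| ≤ 1 / (16 * dd b) → s ∈ V ∧ dd b ≤ 4 * dd s ∧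
      dd s ≤ 4 * dd b ∧ |D (ao k (pt k p (c, s))) p (-1)| ≤ 1 / 4 * dd s := by
    intro b hb s hs
    have h1 := (hU _ hb.1.1).2 s (by
      rw [hp2]
      calc |s - b| * |D (ao k (pt k p (c, b))) p 0| ≤ 1 / (16 * dd b) * dd b :=
            mul_le_mul_of_nonneg_right hs (abs_nonneg _)
        _ = 1 / 16 := by
            have := hd1 b hb
            field_simp)
    rw [hp1] at h1
    exact h1
  have hrle : ∀ s ∈ Ec, r s ≤ 1 / 80 := by
    intro s hs
    have := hd1 s hs
    simp only [hr]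
    rw [div_le_div_iff₀ (by positivity) (by norm_num)]
    linarith
  have hrpos : ∀ s ∈ Ec, 0 < r s := by
    intro s hs
    have := hd1 s hs
    simp only [hr]
    positivity
  obtain ⟨u, huE, hud, hucov⟩ := Vitali.exists_disjoint_subfamily_covering_enlargement_closedBall
    Ec (fun s : ℝ => s) r (1 / 80) hrle 5 (by norm_num)
  have hucount : u.Countable := by
    refine hud.countable_of_nonempty_interior fun b hb => ?_
    rw [interior_closedBall _ (hrpos b (huE hb)).ne']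
    exact ⟨b, Metric.mem_ball_self (hrpos b (huE hb))⟩
  have hcover : Ec ⊆ ⋃ b ∈ u, {s | |s - b| ≤ 5 * r b ∧ pt k p (c, s) ∈ B₀} := by
    intro s hs
    obtain ⟨b, hb, hsb⟩ := hucov s hs
    refine mem_iUnion₂.2 ⟨b, hb, ?_, hs.1.2⟩
    have h1 : s ∈ Metric.closedBall b (5 * r b) := hsb (Metric.mem_closedBall_self (hrpos s hs).le)
    rwa [Metric.mem_closedBall, Real.dist_eq] at h1
  have hpiece : ∀ b ∈ u, volume {s | |s - b| ≤ 5 * r b ∧ pt k p (c, s) ∈ B₀} ≤
      24000 * mQ B * volume (Metric.closedBall b (r b)) := by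
    intro b hb
    have hbE := huE hb
    have h1 := hd1 b hbE
    have h2 := hline b hbE
    have h5r : 5 * r b = 1 / (16 * dd b) := by simp only [hr]; field_simp; norm_num
    have h3 := piece hp hq hB₀m hBm hB hS (c := c) (s₀ := b) (r := 5 * r b) (d := dd b)
      (by linarith) (by rw [h5r]; apply le_of_eq; field_simp) (by
        intro s hs
        rw [h5r] at hs
        obtain ⟨_, h4, h5, h6⟩ := h2 s hs
        exact ⟨by simp only [hdd] at h4 ⊢; linarith, h5, h6⟩)
    rw [Real.volume_closedBall]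
    have h4 : ENNReal.ofReal (dd b / 600) * ENNReal.ofReal (24000 * (2 * r b)) = 1 := by
      rw [← ENNReal.ofReal_mul (by positivity), ← ENNReal.ofReal_one]
      congr 1
      simp only [hr]
      field_simp
      norm_num
    calc volume {s | |s - b| ≤ 5 * r b ∧ pt k p (c, s) ∈ B₀}
        = ENNReal.ofReal (24000 * (2 * r b)) * (ENNReal.ofReal (dd b / 600) *
          volume {s | |s - b| ≤ 5 * r b ∧ pt k p (c, s) ∈ B₀}) := by
          rw [← mul_assoc, mul_comm (ENNReal.ofReal (24000 * (2 * r b))), h4, one_mul]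
      _ ≤ ENNReal.ofReal (24000 * (2 * r b)) * mQ B := by gcongr
      _ = 24000 * mQ B * ENNReal.ofReal (2 * r b) := by
          rw [ENNReal.ofReal_mul (by norm_num : (0 : ℝ) ≤ 24000)]
          simp only [ENNReal.ofReal_ofNat]
          ring
  have hballs : (⋃ b ∈ u, Metric.closedBall b (r b)) ⊆ V ∩ Ico (-1) 2 := by
    refine iUnion₂_subset fun b hb s hs => ?_
    have hbE := huE hb
    rw [Metric.mem_closedBall, Real.dist_eq] at hs
    have h1 := hd1 b hbE
    refine ⟨(hline b hbE s (hs.trans ?_)).1, ?_⟩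
    · simp only [hr]
      rw [div_le_div_iff₀ (by positivity) (by positivity)]
      linarith
    · have h2 := abs_le.1 (hs.trans (hrle b hbE))
      have h3 := hbE.2
      exact ⟨by linarith [h2.1, h3.1], by linarith [h2.2, h3.2]⟩
  calc volume Ec ≤ volume (⋃ b ∈ u, {s | |s - b| ≤ 5 * r b ∧ pt k p (c, s) ∈ B₀}) :=
        measure_mono hcover
    _ ≤ ∑' b : u, volume {s | |s - (b : ℝ)| ≤ 5 * r b ∧ pt k p (c, s) ∈ B₀} :=
        measure_biUnion_le volume hucount _
    _ ≤ ∑' b : u, 24000 * mQ B * volume (Metric.closedBall (b : ℝ) (r b)) :=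
        ENNReal.tsum_le_tsum fun b => hpiece b b.2
    _ = 24000 * mQ B * ∑' b : u, volume (Metric.closedBall (b : ℝ) (r b)) :=
        ENNReal.tsum_mul_left
    _ = 24000 * mQ B * volume (⋃ b ∈ u, Metric.closedBall b (r b)) := by
        rw [measure_biUnion hucount hud fun b _ => measurableSet_closedBall]
    _ ≤ 24000 * mQ B * volume (V ∩ Ico (-1) 2) := by gcongr
    _ ≤ 24000 * mQ B * (3 * volume (V ∩ Ico 0 1)) := by
        gcongr
        exact volume_slice hA hAm k p c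
    _ = 72000 * mQ B * volume (V ∩ Ico 0 1) := by
        rw [show (72000 : ENNReal) = 24000 * 3 by norm_num]
        ring

/-- **[AREA]** the area product estimate. -/
theorem area {p q : ℤ} (hp : p ≤ 1) (hq : 0 ≤ q) {A₀ A B₀ B : Set (ℝ × ℝ)}
    (hA₀m : MeasurableSet A₀) (hAm : MeasurableSet A) (hB₀m : MeasurableSet B₀)
    (hBm : MeasurableSet B) (hA₀ : Per A₀) (hA : Per A) (hB₀ : Per B₀) (hB : Per B)
    (hU : Unst k p A₀ A) (hS : Stab k q B₀ B) :
    mQ (A₀ ∩ B₀) ≤ 72000 * mQ A * mQ B := by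
  have hAB : Per (A₀ ∩ B₀) := fun z a b => by
    simp only [mem_inter_iff, hA₀ z a b, hB₀ z a b]
  have h1 := mQ_pt hAB (hA₀m.inter hB₀m) k p
  have h2 := mQ_pt hA hAm k p
  have hm1 : MeasurableSet {w | pt k p w ∈ A₀ ∩ B₀} := measurable_pt k p (hA₀m.inter hB₀m)
  have hm2 : MeasurableSet {w | pt k p w ∈ A} := measurable_pt k p hAm
  rw [← h1, ← h2, mQ_eq, Measure.prod_apply hm1, Measure.prod_apply hm2, ← mQ_eq]
  calc ∫⁻ c, (volume.restrict (Ico (0 : ℝ) 1)) (Prod.mk c ⁻¹' {w | pt k p w ∈ A₀ ∩ B₀})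
        ∂(volume.restrict (Ico (0 : ℝ) 1))
      ≤ ∫⁻ c, 72000 * mQ B * (volume.restrict (Ico (0 : ℝ) 1)) (Prod.mk c ⁻¹' {w | pt k p w ∈ A})
        ∂(volume.restrict (Ico (0 : ℝ) 1)) := by
        refine lintegral_mono fun c => ?_
        rw [Measure.restrict_apply' measurableSet_Ico, Measure.restrict_apply' measurableSet_Ico]
        exact slice hp hq hAm hB₀m hBm hA hB hU hS c
    _ = 72000 * mQ B * ∫⁻ c, (volume.restrict (Ico (0 : ℝ) 1)) (Prod.mk c ⁻¹' {w | pt k p w ∈ A})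
        ∂(volume.restrict (Ico (0 : ℝ) 1)) :=
        lintegral_const_mul _ (measurable_measure_prodMk_left hm2)
    _ = _ := by ring

end Vale.Agent.P108.Area
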