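import Vale.Agent.P108.Sk.Blocks
import Vale.Agent.P108.Area.Clean

/-!
# P108: measurability and periodicity of the events of the skeleton
-/

open MeasureTheory Filter Set Topology

namespace Vale.Agent.P108.Area

open Vale.Agent.P108 Vale.Agent.P108.Dyn Vale.Agent.P108.Sk P108C
open Vale.Agent.P108.H786 (ao)

variable {k s : ℝ}

lemma ao_add_ip (k : ℝ) (z : ℝ × ℝ) (a b : ℤ) : ao k (z + ip a b) = ao k z := by
  funext i
  unfold ao
  rw [orb_add_ip]
  have : (a : ℝ) + i * b = ((a + i * b : ℤ) : ℝ) := by push_cast; ring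
  rw [this, FT.a_add_int]

/-- every set defined through the coefficients is periodic -/
lemma per_ao (k : ℝ) (P : (ℤ → ℝ) → Prop) : Per {z | P (ao k z)} := by
  intro z a b
  simp only [mem_ofPred_eq, ao_add_ip]

lemma continuous_num (k : ℝ) (d : Dec) : Continuous (fun z => d.num (ao k z)) := by
  cases d with
  | crit t => exact (continuous_ao k t).abs
  | nc t => exact (continuous_ao k t).abs
  | c1 i j => exact (continuous_D k i j).abs
  | c2 i j => exact (continuous_D k i j).abs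
  | gr i j => exact (continuous_D k i j).abs
  | pk R i m j => exact (continuous_D k i j).abs

lemma continuous_den (k : ℝ) (d : Dec) : Continuous (fun z => d.den k (ao k z)) := by
  cases d with
  | crit t => exact continuous_const
  | nc t => exact continuous_const
  | c1 i j => exact continuous_const.mul (continuous_D k i (j - 1)).abs
  | c2 i j => exact continuous_const.mul (continuous_D k (i + 1) j).abs
  | gr i j => exact continuous_const
  | pk R i m j =>
    exact continuous_const.mul ((continuous_D k i (m - 2)).abs.mul (continuous_D k m j).abs)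

lemma meas_low (k s : ℝ) (d : Dec) : MeasurableSet {z | Low k s (ao k z) d} :=
  measurableSet_lt (continuous_num k d).measurable ((continuous_den k d).measurable.const_mul _)

lemma meas_NC (k s : ℝ) (i : ℤ) : MeasurableSet {z | i ∈ NC k s (ao k z)} := meas_low k s _

lemma meas_Crit (k s : ℝ) (i : ℤ) : MeasurableSet {z | i ∈ Crit k s (ao k z)} := meas_low k s _

lemma meas_imp {P : Prop} {A : Set (ℝ × ℝ)} (h : MeasurableSet A) :
    MeasurableSet {z | P → z ∈ A} := by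
  by_cases hP : P
  · simpa [hP] using h
  · simp [hP]

lemma meas_and {P : Prop} {A : Set (ℝ × ℝ)} (h : MeasurableSet A) :
    MeasurableSet {z | P ∧ z ∈ A} := by
  by_cases hP : P
  · simpa [hP] using h
  · simp [hP]

lemma meas_peakPat (k s : ℝ) (R : ℕ) (m n i j : ℤ) (S : Finset ℤ) :
    MeasurableSet {z | PeakPat k s (ao k z) R m n i j S} := by
  have h : {z | PeakPat k s (ao k z) R m n i j S} =
      {z | ((m ≤ n ∧ (cP : ℤ) * (n - m + 1) ≤ R ∧ m - i ≤ R ∧ (R : ℤ) ≤ 2 * (m - i) ∧ j - n ≤ R ∧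
        (R : ℤ) ≤ 2 * (j - n)) ∧
          (∀ y : ℕ, 1 ≤ y → i ≤ m - y → (ms (↑S) (m - y) m : ℝ) ≤ Sk.c1 * y) ∧
          (∀ y : ℕ, 1 ≤ y → n + y ≤ j → (ms (↑S) (n + 1) (n + 1 + y) : ℝ) ≤ Sk.c1 * y)) ∧
        z ∈ {z | Low k s (ao k z) (.gr i (m - 2))}ᶜ ∩
        {z | Low k s (ao k z) (.gr m j)}ᶜ ∩ {z | Low k s (ao k z) (.pk R i m j)} ∩
          ((⋂ p : ℤ, {z | (i < p ∧ p < m ∧
            (∀ y : ℕ, 1 ≤ y → i ≤ p - y → (ms (↑S) (p - y) p : ℝ) < c0 * y)) →
              z ∈ {z | Low k s (ao k z) (.c1 i (p - 1))}ᶜ}) ∩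
          (⋂ r : ℤ, {z | (n < r ∧ r < j ∧
            (∀ y : ℕ, 1 ≤ y → r + y ≤ j → (ms (↑S) (r + 1) (r + 1 + y) : ℝ) < c0 * y)) →
              z ∈ {z | Low k s (ao k z) (.c2 (r + 1) j)}ᶜ}))} := by
    ext z
    simp only [mem_ofPred_eq, mem_inter_iff, mem_compl_iff, mem_iInter]
    constructor
    · rintro ⟨h1, h2, h3, h4, h5, h6, h7, h8, h9, h10, h11, h12, h13⟩
      exact ⟨⟨⟨h1, h2, h3, h4, h5, h6⟩, h9, h10⟩, ⟨⟨h7, h8⟩, h13⟩,
        fun p hp => h11 p hp.1 hp.2.1 hp.2.2, fun r hr => h12 r hr.1 hr.2.1 hr.2.2⟩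
    · rintro ⟨⟨⟨h1, h2, h3, h4, h5, h6⟩, h9, h10⟩, ⟨⟨h7, h8⟩, h13⟩, h11, h12⟩
      exact ⟨h1, h2, h3, h4, h5, h6, h7, h8, h9, h10,
        fun p a b c => h11 p ⟨a, b, c⟩, fun r a b c => h12 r ⟨a, b, c⟩, h13⟩
  rw [h]
  refine meas_and ((((meas_low k s _).compl.inter (meas_low k s _).compl).inter
    (meas_low k s _)).inter ?_)
  exact (MeasurableSet.iInter fun p => meas_imp (meas_low k s _).compl).inter
    (MeasurableSet.iInter fun r => meas_imp (meas_low k s _).compl)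

lemma meas_peak (k s : ℝ) (R : ℕ) (m n i j : ℤ) :
    MeasurableSet {z | Peak k s (ao k z) R m n i j} := by
  have h : {z | Peak k s (ao k z) R m n i j} = ⋃ S : Finset ℤ,
      {z | S ∈ patterns (s0 k) i (j + 1) ∧ z ∈ {z | PeakPat k s (ao k z) R m n i j S}} := by
    ext z
    simp only [Peak, mem_ofPred_eq, mem_iUnion]
  rw [h]
  exact MeasurableSet.iUnion fun S => meas_and (meas_peakPat k s R m n i j S)

lemma meas_defect (k s : ℝ) (o : ℤ) (R : ℕ) : MeasurableSet {z | Defect k s (ao k z) o R} := by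
  have h : {z | Defect k s (ao k z) o R} =
      {z | R = s0 k ∧ z ∈ {z | o ∈ Crit k s (ao k z)}} ∪
      ((⋃ l : ℕ, {z | R = s0 k * 2 ^ l ∧ z ∈ {z | cδ * R ≤ ms (NC k s (ao k z)) (o - R) (o + R + 1)}})
      ∪ (⋃ l : ℕ, ⋃ n : ℤ, ⋃ i : ℤ, ⋃ j : ℤ, {z | R = s0 k * 2 ^ l ∧
          z ∈ {z | Peak k s (ao k z) R o n i j}})) := by
    ext z
    simp only [Defect, mem_ofPred_eq, mem_union, mem_iUnion]
    refine or_congr Iff.rfl (or_congr Iff.rfl ?_)
    constructor
    · rintro ⟨l, h1, n, i, j, h2⟩; exact ⟨l, n, i, j, h1, h2⟩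
    · rintro ⟨l, n, i, j, h1, h2⟩; exact ⟨l, h1, n, i, j, h2⟩
  rw [h]
  refine (meas_and (meas_Crit k s o)).union ((MeasurableSet.iUnion fun l => meas_and ?_).union
    (MeasurableSet.iUnion fun l => MeasurableSet.iUnion fun n => MeasurableSet.iUnion fun i =>
      MeasurableSet.iUnion fun j => meas_and (meas_peak k s R o n i j)))
  exact meas_ms_ge (fun i => meas_NC k s i) _ _ _

lemma meas_Bset (k s : ℝ) (t : ℤ) : MeasurableSet {z | t ∈ Bset k s (ao k z)} := by
  have h : {z | t ∈ Bset k s (ao k z)} = ⋃ o : ℤ, ⋃ R : ℕ,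
      {z | |t - o| ≤ R ∧ z ∈ {z | Defect k s (ao k z) o R}} := by
    ext z
    simp only [Bset, mem_ofPred_eq, mem_iUnion]
    constructor
    · rintro ⟨o, R, h1, h2⟩; exact ⟨o, R, h2, h1⟩
    · rintro ⟨o, R, h1, h2⟩; exact ⟨o, R, h2, h1⟩
  rw [h]
  exact MeasurableSet.iUnion fun o => MeasurableSet.iUnion fun R =>
    meas_and (meas_defect k s o R)

lemma meas_Eset (k s : ℝ) (t : ℤ) : MeasurableSet {z | t ∈ Eset k s (ao k z)} := by
  have h : {z | t ∈ Eset k s (ao k z)} = ⋃ o : ℤ, ⋃ R : ℕ,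
      {z | |t - o| ≤ cZ * R ∧ z ∈ {z | Defect k s (ao k z) o R}} := by
    ext z
    simp only [Eset, mem_ofPred_eq, mem_iUnion]
    constructor
    · rintro ⟨o, R, h1, h2⟩; exact ⟨o, R, h2, h1⟩
    · rintro ⟨o, R, h1, h2⟩; exact ⟨o, R, h2, h1⟩
  rw [h]
  exact MeasurableSet.iUnion fun o => MeasurableSet.iUnion fun R =>
    meas_and (meas_defect k s o R)

lemma meas_Bm (k s : ℝ) (t : ℤ) : MeasurableSet {z | t ∈ Bm k s (ao k z)} := by
  have h : {z | t ∈ Bm k s (ao k z)} = ⋃ o : ℤ, ⋃ R : ℕ,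
      {z | (|t - o| ≤ R ∧ o + cZ * R < 0) ∧ z ∈ {z | Defect k s (ao k z) o R}} := by
    ext z
    simp only [Bm, mem_ofPred_eq, mem_iUnion]
    constructor
    · rintro ⟨o, R, h1, h2⟩; exact ⟨o, R, h2, h1⟩
    · rintro ⟨o, R, h1, h2⟩; exact ⟨o, R, h2, h1⟩
  rw [h]
  exact MeasurableSet.iUnion fun o => MeasurableSet.iUnion fun R =>
    meas_and (meas_defect k s o R)

lemma meas_Bp (k s : ℝ) (t : ℤ) : MeasurableSet {z | t ∈ Bp k s (ao k z)} := by
  have h : {z | t ∈ Bp k s (ao k z)} = ⋃ o : ℤ, ⋃ R : ℕ,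
      {z | (|t - o| ≤ R ∧ 0 < o - cZ * R) ∧ z ∈ {z | Defect k s (ao k z) o R}} := by
    ext z
    simp only [Bp, mem_ofPred_eq, mem_iUnion]
    constructor
    · rintro ⟨o, R, h1, h2⟩; exact ⟨o, R, h2, h1⟩
    · rintro ⟨o, R, h1, h2⟩; exact ⟨o, R, h2, h1⟩
  rw [h]
  exact MeasurableSet.iUnion fun o => MeasurableSet.iUnion fun R =>
    meas_and (meas_defect k s o R)

lemma meas_NcMax (k s : ℝ) : MeasurableSet {z | NcMax k s (ao k z)} := by
  have h : {z | NcMax k s (ao k z)} = {z | (0 : ℤ) ∈ NC k s (ao k z)} ∪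
      ((⋃ y : ℕ, {z | 1 ≤ y ∧ z ∈ {z | (1 / 20 : ℝ) * y ≤ ms (NC k s (ao k z)) (-y) 0}}) ∪
      (⋃ y : ℕ, {z | 1 ≤ y ∧ z ∈ {z | (1 / 20 : ℝ) * y ≤ ms (NC k s (ao k z)) 1 (1 + y)}})) := by
    ext z
    simp only [NcMax, mem_ofPred_eq, mem_union, mem_iUnion]
  rw [h]
  exact (meas_NC k s 0).union ((MeasurableSet.iUnion fun y => meas_and
    (meas_ms_ge (fun i => meas_NC k s i) _ _ _)).union (MeasurableSet.iUnion fun y => meas_and
    (meas_ms_ge (fun i => meas_NC k s i) _ _ _)))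

lemma countable_dec : Countable Dec := Encodable.countable

lemma meas_Near (k s : ℝ) : MeasurableSet (Near k s) := by
  have := countable_dec
  have h : Near k s = ⋃ d : Dec, {z | d.Adm k ∧
      z ∈ {z | |d.num (ao k z) / d.den k (ao k z) - (1 + s)| ≤ k ^ (-((d.dst : ℝ) / 12))}} := by
    ext z
    simp only [Near, mem_ofPred_eq, mem_iUnion]
  rw [h]
  refine MeasurableSet.iUnion fun d => meas_and ?_
  exact measurableSet_le (((continuous_num k d).measurable.div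
    (continuous_den k d).measurable).sub_const _).abs measurable_const

lemma meas_Nset (k s : ℝ) : MeasurableSet (Nset k s) :=
  ((meas_Eset k s 0).union (meas_NcMax k s)).union (meas_Near k s)

lemma per_Near (k s : ℝ) : Per (Near k s) := by
  intro z a b
  simp only [Near, mem_ofPred_eq, ao_add_ip]

lemma per_Nset (k s : ℝ) : Per (Nset k s) := by
  intro z a b
  have h := per_Near k s z a b
  simp only [Nset, mem_union, mem_ofPred_eq, ao_add_ip, h]

end Vale.Agent.P108.Area
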